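import Mathlib

set_option autoImplicit false

namespace Crest.Agent.R327

open Matrix

theorem rank_add_le' {m n K : Type*} [Fintype m] [Fintype n] [Field K] (A B : Matrix m n K) :
    (A + B).rank ≤ A.rank + B.rank := by
  unfold Matrix.rank
  rw [Matrix.mulVecLin_add]
  have h : LinearMap.range (A.mulVecLin + B.mulVecLin) ≤
      LinearMap.range A.mulVecLin ⊔ LinearMap.range B.mulVecLin := by
    rintro _ ⟨x, rfl⟩
    exact Submodule.add_mem_sup ⟨x, rfl⟩ ⟨x, rfl⟩
  exact (Submodule.finrank_mono h).trans (Submodule.finrank_add_le_finrank_add_finrank _ _)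

theorem rank_map_eq {m F K : Type*} [Fintype m] [DecidableEq m] [Field F] [Field K]
    (φ : F →+* K) (M : Matrix m m F) : (M.map φ).rank = M.rank := by
  obtain ⟨V, U, e, hV, hU, h⟩ := Matrix.exists_rank_normal_form M
  have hV' : IsUnit (V.map φ).det := by
    have := (Matrix.isUnit_iff_isUnit_det V).1 hV
    have h2 := this.map φ
    rwa [RingHom.map_det] at h2
  have hU' : IsUnit (U.map φ).det := by
    have := (Matrix.isUnit_iff_isUnit_det U).1 hU
    have h2 := this.map φ
    rwa [RingHom.map_det] at h2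
  have h2 : V.map φ * M.map φ * U.map φ =
      ((fromBlocks 1 0 0 0 : Matrix (Fin M.rank ⊕ Fin (Fintype.card m - M.rank))
        (Fin M.rank ⊕ Fin (Fintype.card m - M.rank)) K)).submatrix e e := by
    rw [← Matrix.map_mul, ← Matrix.map_mul, h]
    ext i j
    simp only [Matrix.map_apply, Matrix.submatrix_apply]
    rcases e i with a | a <;> rcases e j with b | b <;> simp [Matrix.one_apply]
  have h3 : (V.map φ * M.map φ * U.map φ).rank = (M.map φ).rank := by
    rw [Matrix.rank_mul_eq_left_of_isUnit_det _ _ hU', Matrix.rank_mul_eq_right_of_isUnit_det _ _ hV']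
  rw [← h3, h2, Matrix.rank_submatrix, ← diagonal_one, ← diagonal_zero, fromBlocks_diagonal]
  classical
  rw [Matrix.rank_diagonal]
  rw [Fintype.card_subtype, Finset.card_filter, Fintype.sum_sum_type]
  simp

/-- trace inequality -/
theorem sq_trace_le {m : Type*} [Fintype m] [DecidableEq m] (B : Matrix m m ℝ) :
    (∑ i, ∑ j, B i j ^ 2) ^ 2 ≤ (B.rank : ℝ) * ∑ i, ∑ i', (∑ j, B i j * B i' j) ^ 2 := by
  set H : Matrix m m ℝ := B * Bᴴ with hH
  have hherm : H.IsHermitian := Matrix.isHermitian_mul_conjTranspose_self B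
  have h1 : ∑ i, ∑ j, B i j ^ 2 = ∑ i, hherm.eigenvalues i := by
    have := hherm.trace_eq_sum_eigenvalues
    simp only [RCLike.ofReal_real_eq_id, id] at this
    rw [← this]
    simp [hH, Matrix.trace, Matrix.mul_apply, sq]
  have h2 : ∑ i, ∑ i', (∑ j, B i j * B i' j) ^ 2 = ∑ i, hherm.eigenvalues i ^ 2 := by
    have h3 : ∑ i, ∑ i', (∑ j, B i j * B i' j) ^ 2 = (H * H).trace := by
      simp only [hH, Matrix.trace, Matrix.diag, Matrix.mul_apply, conjTranspose_apply, star_trivial, sq]
      refine Finset.sum_congr rfl fun i _ => Finset.sum_congr rfl fun i' _ => ?_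
      congr 1
      exact Finset.sum_congr rfl fun j _ => mul_comm _ _
    rw [h3]
    conv_lhs => rw [hherm.spectral_theorem]
    rw [← map_mul, Unitary.conjStarAlgAut_apply, Matrix.trace_mul_cycle]
    simp [sq, Matrix.trace]
  rw [h1, h2]
  have h4 : H.rank ≤ B.rank := Matrix.rank_mul_le_left _ _
  rw [hherm.rank_eq_card_non_zero_eigs, Fintype.card_subtype] at h4
  have h5 : ∑ i, hherm.eigenvalues i =
      ∑ i ∈ Finset.univ.filter (fun i => hherm.eigenvalues i ≠ 0), hherm.eigenvalues i := by
    rw [Finset.sum_filter_ne_zero]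
  rw [h5]
  refine sq_sum_le_card_mul_sum_sq.trans ?_
  refine mul_le_mul (by exact_mod_cast h4) ?_ (Finset.sum_nonneg fun _ _ => sq_nonneg _) (Nat.cast_nonneg _)
  exact Finset.sum_le_sum_of_subset_of_nonneg (Finset.filter_subset _ _) fun _ _ _ => sq_nonneg _

end Crest.Agent.R327
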