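import Mathlib
import Crest.Agent.R327.Rank

set_option autoImplicit false
set_option linter.unusedSectionVars false

namespace Crest.Agent.R327

open MvPolynomial Matrix

section
variable (K : Type*) [CommRing K]

/-- the local `2 × 2` transition: raising a bit `a` times -/
def loc (a : ℕ) (s t : Bool) : K := if s.toNat + a = t.toNat then 1 else 0

lemma loc_mul (a b : ℕ) (s t : Bool) :
    ∑ u : Bool, loc K a s u * loc K b u t = loc K (a + b) s t := by
  cases s <;> cases t <;> simp only [loc, Fintype.sum_bool, Bool.toNat_true, Bool.toNat_false] <;>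
    split_ifs <;> first | omega | simp

variable {ι : Type*} [Fintype ι] [DecidableEq ι]

/-- matrix of multiplication by the monomial `a` on `K[x]/(x²)` -/
def Emat (a : ι →₀ ℕ) : Matrix (ι → Bool) (ι → Bool) K :=
  Matrix.of fun s t => ∏ e, loc K (a e) (s e) (t e)

lemma Emat_add (a b : ι →₀ ℕ) : Emat K (a + b) = Emat K a * Emat K b := by
  ext s t
  simp only [Emat, Matrix.of_apply, Matrix.mul_apply, Finsupp.add_apply, ← loc_mul]
  rw [Finset.prod_univ_sum, Fintype.piFinset_univ]
  exact Finset.sum_congr rfl fun u _ => Finset.prod_mul_distrib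

/-- matrix of multiplication by a polynomial on `K[x]/(x²)` -/
noncomputable def Mop : MvPolynomial ι K →ₗ[K] Matrix (ι → Bool) (ι → Bool) K :=
  (MvPolynomial.basisMonomials ι K).constr K (Emat K)

lemma Mop_monomial (a : ι →₀ ℕ) (c : K) : Mop K (monomial a c) = c • Emat K a := by
  have h : (monomial a c : MvPolynomial ι K) = c • (MvPolynomial.basisMonomials ι K) a := by
    simp [MvPolynomial.smul_monomial]
  rw [h, map_smul, Mop, Module.Basis.constr_basis]

lemma Mop_mul (f g : MvPolynomial ι K) : Mop K (f * g) = Mop K f * Mop K g := by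
  induction f using MvPolynomial.induction_on' with
  | monomial a c =>
    induction g using MvPolynomial.induction_on' with
    | monomial b d =>
      rw [monomial_mul, Mop_monomial, Mop_monomial, Mop_monomial, Emat_add]
      simp [smul_smul, mul_comm]
    | add p q hp hq => rw [mul_add, map_add, map_add, hp, hq, Matrix.mul_add]
  | add p q hp hq => rw [add_mul, map_add, map_add, hp, hq, Matrix.add_mul]

end

section
variable {ι : Type*} [Fintype ι] [DecidableEq ι] (w : ι → ℤ)

/-- weight of a state -/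
def wtS (s : ι → Bool) : ℤ := ∑ e, ((s e).toNat : ℤ) * w e

/-- weight of an exponent vector -/
def wtE (a : ι →₀ ℕ) : ℤ := ∑ e, (a e : ℤ) * w e

omit [DecidableEq ι] in
lemma wtE_add (a b : ι →₀ ℕ) : wtE w (a + b) = wtE w a + wtE w b := by
  simp [wtE, add_mul, Finset.sum_add_distrib]

omit [DecidableEq ι] in
lemma wtE_zero : wtE w (0 : ι →₀ ℕ) = 0 := by simp [wtE]

variable {K : Type*} [Field K]

omit [DecidableEq ι] in
lemma wt_of_Emat_ne_zero {a : ι →₀ ℕ} {s t : ι → Bool} (h : Emat K a s t ≠ 0) :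
    wtS w t = wtS w s + wtE w a := by
  simp only [Emat, Matrix.of_apply] at h
  rw [Finset.prod_ne_zero_iff] at h
  simp only [wtS, wtE, ← Finset.sum_add_distrib]
  refine Finset.sum_congr rfl fun e he => ?_
  have h1 := h e he
  simp only [loc, ne_eq, ite_eq_right_iff, one_ne_zero, imp_false, not_not] at h1
  rw [← h1]; push_cast; ring

lemma exists_of_Mop_ne_zero {f : MvPolynomial ι K} {s t : ι → Bool} (h : Mop K f s t ≠ 0) :
    ∃ a ∈ f.support, wtS w t = wtS w s + wtE w a := by
  conv_lhs at h => rw [f.as_sum]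
  rw [map_sum, Matrix.sum_apply] at h
  obtain ⟨a, ha, h2⟩ := Finset.exists_ne_zero_of_sum_ne_zero h
  refine ⟨a, ha, wt_of_Emat_ne_zero w (K := K) ?_⟩
  intro h3
  apply h2
  rw [Mop_monomial, Matrix.smul_apply, h3, smul_zero]

/-- the block of a matrix from weight class `x` to weight class `y` -/
def blk {K : Type*} [Zero K] (M : Matrix (ι → Bool) (ι → Bool) K) (x y : ℤ) :
    Matrix (ι → Bool) (ι → Bool) K :=
  Matrix.of fun s t => if wtS w s = x ∧ wtS w t = y then M s t else 0

omit [DecidableEq ι] in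
lemma blk_add (M N : Matrix (ι → Bool) (ι → Bool) K) (x y : ℤ) :
    blk w (M + N) x y = blk w M x y + blk w N x y := by
  ext s t
  simp only [blk, Matrix.of_apply, Matrix.add_apply]
  split_ifs <;> simp

omit [DecidableEq ι] in
lemma blk_zero (x y : ℤ) : blk w (0 : Matrix (ι → Bool) (ι → Bool) K) x y = 0 := by
  ext s t
  simp [blk]

/-- all monomials have weight at least `x` -/
def WGe (x : ℤ) (g : MvPolynomial ι K) : Prop := ∀ a ∈ g.support, x ≤ wtE w a

/-- all monomials have weight at most `-y` -/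
def WLe (y : ℤ) (g : MvPolynomial ι K) : Prop := ∀ a ∈ g.support, wtE w a ≤ -y

lemma WGe.mul {x x' : ℤ} {g g' : MvPolynomial ι K} (h : WGe w x g) (h' : WGe w x' g') :
    WGe w (x + x') (g * g') := by
  intro a ha
  obtain ⟨b, hb, c, hc, rfl⟩ := Finset.mem_add.1 (support_mul g g' ha)
  rw [wtE_add]
  exact add_le_add (h b hb) (h' c hc)

lemma WLe.mul {x x' : ℤ} {g g' : MvPolynomial ι K} (h : WLe w x g) (h' : WLe w x' g') :
    WLe w (x + x') (g * g') := by
  intro a ha
  obtain ⟨b, hb, c, hc, rfl⟩ := Finset.mem_add.1 (support_mul g g' ha)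
  rw [wtE_add]
  have := h b hb
  have := h' c hc
  linarith

lemma rank_blk_mul_le {x₀ y₀ : ℤ} {g h : MvPolynomial ι K} (hg : WGe w x₀ g) (hh : WLe w y₀ h)
    (x w₀ : ℤ) :
    (blk w (Mop K (g * h)) x (x + w₀)).rank ≤
      (Finset.univ.filter fun u : ι → Bool => 2 * x + (x₀ + y₀ + w₀) ≤ 2 * wtS w u).card := by
  set U := (Finset.univ.filter fun u : ι → Bool => 2 * x + (x₀ + y₀ + w₀) ≤ 2 * wtS w u) with hU
  let A : Matrix (ι → Bool) (ι → Bool) K :=
    Matrix.of fun s u => if wtS w s = x then Mop K g s u else 0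
  let B : Matrix (ι → Bool) (ι → Bool) K :=
    Matrix.of fun u t => if u ∈ U ∧ wtS w t = x + w₀ then Mop K h u t else 0
  have hAB : blk w (Mop K (g * h)) x (x + w₀) = A * B := by
    ext s t
    simp only [blk, Matrix.of_apply, Mop_mul, Matrix.mul_apply, A, B]
    by_cases h1 : wtS w s = x
    · by_cases h2 : wtS w t = x + w₀
      · simp only [h1, h2, and_self, if_true, and_true]
        refine Finset.sum_congr rfl fun u _ => ?_
        by_cases h3 : u ∈ U
        · simp [h3]
        · simp only [h3, if_false, mul_zero]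
          by_contra h4
          obtain ⟨h5, h6⟩ := mul_ne_zero_iff.1 h4
          obtain ⟨a, ha, ha'⟩ := exists_of_Mop_ne_zero w h5
          obtain ⟨b, hb, hb'⟩ := exists_of_Mop_ne_zero w h6
          apply h3
          simp only [hU, Finset.mem_filter, Finset.mem_univ, true_and]
          have := hg a ha
          have := hh b hb
          linarith
      · simp [h2]
    · simp [h1]
  rw [hAB]
  refine (Matrix.rank_mul_le_right _ _).trans (Matrix.rank_le_card_of_support_subset B U ?_)
  intro u hu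
  by_contra h3
  apply hu
  ext t
  have h4 : u ∉ U := by simpa using h3
  simp [B, Matrix.row, h4]

/-- the complexity measure -/
noncomputable def mu (r : ℝ) (X : Finset ℤ) (w₀ : ℤ) (f : MvPolynomial ι K) : ℝ :=
  ∑ x ∈ X, r ^ (2 * x) * ((blk w (Mop K f) x (x + w₀)).rank : ℝ)

/-- total mass -/
noncomputable def Wtot (r : ℝ) : ℝ := ∑ s : ι → Bool, r ^ (2 * wtS w s)

lemma mu_add_le {r : ℝ} (hr : 0 < r) (X : Finset ℤ) (w₀ : ℤ) (f g : MvPolynomial ι K) :
    mu w r X w₀ (f + g) ≤ mu w r X w₀ f + mu w r X w₀ g := by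
  simp only [mu, ← Finset.sum_add_distrib, ← mul_add]
  refine Finset.sum_le_sum fun x _ => mul_le_mul_of_nonneg_left ?_ (zpow_pos hr _).le
  rw [map_add, blk_add]
  exact_mod_cast rank_add_le' _ _

lemma mu_zero (r : ℝ) (X : Finset ℤ) (w₀ : ℤ) : mu w r X w₀ (0 : MvPolynomial ι K) = 0 := by
  simp [mu, blk_zero]

lemma mu_mul_le {r : ℝ} (hr : 1 ≤ r) (X : Finset ℤ) (w₀ : ℤ) {x₀ y₀ : ℤ} {g h : MvPolynomial ι K}
    (hg : WGe w x₀ g) (hh : WLe w y₀ h) :
    mu w r X w₀ (g * h) ≤ X.card * Wtot w r * r ^ (-w₀) * r ^ (-(x₀ + y₀)) := by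
  have hr0 : 0 < r := by linarith
  have key : ∀ x ∈ X, r ^ (2 * x) * ((blk w (Mop K (g * h)) x (x + w₀)).rank : ℝ) ≤
      Wtot w r * r ^ (-w₀) * r ^ (-(x₀ + y₀)) := by
    intro x _
    have h1 : ((blk w (Mop K (g * h)) x (x + w₀)).rank : ℝ) ≤
        ((Finset.univ.filter fun u : ι → Bool =>
          2 * x + (x₀ + y₀ + w₀) ≤ 2 * wtS w u).card : ℝ) := by
      exact_mod_cast rank_blk_mul_le w hg hh x w₀
    refine (mul_le_mul_of_nonneg_left h1 (zpow_pos hr0 _).le).trans ?_
    rw [Wtot, Finset.sum_mul, Finset.sum_mul, Finset.card_filter, Nat.cast_sum, Finset.mul_sum]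
    refine Finset.sum_le_sum fun u _ => ?_
    split_ifs with h2
    · rw [← zpow_add₀ hr0.ne', ← zpow_add₀ hr0.ne']
      simp only [Nat.cast_one, mul_one]
      exact zpow_le_zpow_right₀ hr (by linarith)
    · simp only [Nat.cast_zero, mul_zero]
      positivity
  refine (Finset.sum_le_card_nsmul _ _ _ key).trans ?_
  rw [nsmul_eq_mul]
  exact le_of_eq (by ring)

/-- `Dec f c`: `f` is a sum of products `g * h` of total cost at most `c` -/
inductive Dec (r : ℝ) : MvPolynomial ι K → ℝ → Prop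
  | zero : Dec r 0 0
  | base (g h : MvPolynomial ι K) (x y : ℤ) : WGe w x g → WLe w y h → Dec r (g * h) (r ^ (-(x + y)))
  | add (f f' : MvPolynomial ι K) (c c' : ℝ) : Dec r f c → Dec r f' c' → Dec r (f + f') (c + c')
  | mono (f : MvPolynomial ι K) (c c' : ℝ) : Dec r f c → c ≤ c' → Dec r f c'

lemma mu_le_of_Dec {r : ℝ} (hr : 1 ≤ r) (X : Finset ℤ) (w₀ : ℤ) {f : MvPolynomial ι K} {c : ℝ}
    (h : Dec w r f c) : mu w r X w₀ f ≤ X.card * Wtot w r * r ^ (-w₀) * c := by
  have hr0 : 0 < r := by linarith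
  have hW : 0 ≤ Wtot w r := Finset.sum_nonneg fun _ _ => (zpow_pos hr0 _).le
  induction h with
  | zero => simp [mu_zero]
  | base g h x y hg hh => exact mu_mul_le w hr X w₀ hg hh
  | add f f' c c' _ _ h1 h2 =>
    refine (mu_add_le w hr0 X w₀ f f').trans ?_
    rw [mul_add]; exact add_le_add h1 h2
  | mono f c c' _ hc h1 => exact h1.trans (mul_le_mul_of_nonneg_left hc (by positivity))

lemma exists_split {γ : ℤ} {Q : MvPolynomial ι K} (hQ : ∀ a ∈ Q.support, γ ≤ |wtE w a|) :
    ∃ Q₁ Q₂ : MvPolynomial ι K, Q = Q₁ + Q₂ ∧ WGe w γ Q₁ ∧ WLe w γ Q₂ := by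
  refine ⟨∑ a ∈ Q.support with 0 ≤ wtE w a, monomial a (coeff a Q),
    ∑ a ∈ Q.support with ¬ 0 ≤ wtE w a, monomial a (coeff a Q), ?_, ?_, ?_⟩
  · rw [Finset.sum_filter_add_sum_filter_not]
    exact Q.as_sum
  · intro a ha
    obtain ⟨b, hb, hab⟩ := Finset.mem_biUnion.1 (support_sum ha)
    have h1 : a = b := by simpa using support_monomial_subset hab
    subst h1
    rw [Finset.mem_filter] at hb
    have := hQ a hb.1
    rwa [abs_of_nonneg hb.2] at this
  · intro a ha
    obtain ⟨b, hb, hab⟩ := Finset.mem_biUnion.1 (support_sum ha)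
    have h1 : a = b := by simpa using support_monomial_subset hab
    subst h1
    rw [Finset.mem_filter] at hb
    have := hQ a hb.1
    rw [abs_of_neg (not_le.1 hb.2)] at this
    linarith

lemma Dec.mul {r : ℝ} (hr : 0 < r) {γ : ℤ} {Q : MvPolynomial ι K}
    (hQ : ∀ a ∈ Q.support, γ ≤ |wtE w a|) {f : MvPolynomial ι K} {c : ℝ} (h : Dec w r f c) :
    Dec w r (f * Q) (2 * r ^ (-γ) * c) := by
  obtain ⟨Q₁, Q₂, rfl, h1, h2⟩ := exists_split w hQ
  induction h with
  | zero => simpa using Dec.zero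
  | base g h x y hg hh =>
    have e1 : g * h * (Q₁ + Q₂) = (g * Q₁) * h + g * (h * Q₂) := by ring
    rw [e1]
    refine Dec.mono _ _ _ (Dec.add _ _ _ _ (Dec.base _ _ _ _ (hg.mul w h1) hh)
      (Dec.base _ _ _ _ hg (hh.mul w h2))) (le_of_eq ?_)
    have e2 : -(x + γ + y) = -γ + -(x + y) := by ring
    have e3 : -(x + (y + γ)) = -γ + -(x + y) := by ring
    rw [e2, e3, zpow_add₀ hr.ne']
    ring
  | add f f' c c' _ _ h3 h4 =>
    rw [add_mul, mul_add (2 * r ^ (-γ))]
    exact Dec.add _ _ _ _ h3 h4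
  | mono f c c' _ hc h3 => exact Dec.mono _ _ _ h3 (mul_le_mul_of_nonneg_left hc (by positivity))

lemma Dec.mul_zero {r : ℝ} {Q : MvPolynomial ι K}
    (hQ : ∀ a ∈ Q.support, wtE w a = 0) {f : MvPolynomial ι K} {c : ℝ} (h : Dec w r f c) :
    Dec w r (f * Q) c := by
  have h1 : WGe w 0 Q := fun a ha => (hQ a ha).ge
  induction h with
  | zero => simpa using Dec.zero
  | base g h x y hg hh =>
    have e1 : g * h * Q = (g * Q) * h := by ring
    rw [e1]
    simpa using Dec.base (r := r) _ _ _ _ (hg.mul w h1) hh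
  | add f f' c c' _ _ h3 h4 =>
    rw [add_mul]
    exact Dec.add _ _ _ _ h3 h4
  | mono f c c' _ hc h3 => exact Dec.mono _ _ _ h3 hc

lemma Dec.one (r : ℝ) : Dec w r (1 : MvPolynomial ι K) 1 := by
  have h1 : ∀ a ∈ (1 : MvPolynomial ι K).support, wtE w a = 0 := by
    intro a ha
    have : a = 0 := by
      have := support_monomial_subset (σ := ι) (R := K) (s := 0) (a := 1) ha
      simpa using this
    rw [this, wtE_zero]
  have := Dec.base (w := w) (r := r) (1 : MvPolynomial ι K) 1 0 0 (fun a ha => (h1 a ha).ge)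
    (fun a ha => by rw [h1 a ha]; simp)
  simpa using this

lemma Dec.smul {r : ℝ} (k : K) {f : MvPolynomial ι K} {c : ℝ} (h : Dec w r f c) :
    Dec w r (k • f) c := by
  have : k • f = f * C k := by rw [smul_eq_C_mul, mul_comm]
  rw [this]
  refine h.mul_zero w fun a ha => ?_
  have : a = 0 := by
    have := support_monomial_subset (σ := ι) (R := K) (s := 0) (a := k) ha
    simpa using this
  rw [this, wtE_zero]

lemma Dec.sum {r : ℝ} {α : Type*} (s : Finset α) (f : α → MvPolynomial ι K) (c : ℝ)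
    (h : ∀ i ∈ s, Dec w r (f i) c) : Dec w r (∑ i ∈ s, f i) (s.card * c) := by
  classical
  induction s using Finset.induction_on with
  | empty => simpa using Dec.zero
  | insert a s ha ih =>
    rw [Finset.sum_insert ha, Finset.card_insert_of_notMem ha]
    have := Dec.add _ _ _ _ (h a (Finset.mem_insert_self _ _))
      (ih fun i hi => h i (Finset.mem_insert_of_mem hi))
    refine Dec.mono _ _ _ this (le_of_eq ?_)
    push_cast; ring

end

end Crest.Agent.R327
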