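import Mathlib
import Crest.Prelude.Def_SPSPS
import Crest.Agent.R327.Op

set_option autoImplicit false
set_option linter.unusedSectionVars false

namespace Crest.Agent.R327

open MvPolynomial Crest.ArithCircuit

section
variable {ι : Type*} [Fintype ι] [DecidableEq ι] (w : ι → ℤ) {K : Type*} [Field K]

lemma wtE_eq_of_degree {A : ℕ} (hw : ∀ e, w e = A ∨ w e = -((A : ℤ) - 2)) (a : ι →₀ ℕ) :
    ∃ p q : ℕ, p + q = a.degree ∧ wtE w a = p * (A : ℤ) - q * ((A : ℤ) - 2) := by
  refine ⟨∑ e with w e = A, a e, ∑ e with ¬ w e = A, a e, ?_, ?_⟩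
  · rw [Finset.sum_filter_add_sum_filter_not, Finsupp.degree_eq_sum]
  · rw [wtE, ← Finset.sum_filter_add_sum_filter_not Finset.univ (fun e => w e = A)]
    push_cast
    rw [Finset.sum_mul, Finset.sum_mul, sub_eq_add_neg, ← Finset.sum_neg_distrib]
    congr 1
    · refine Finset.sum_congr rfl fun e he => ?_
      rw [(Finset.mem_filter.1 he).2]
    · refine Finset.sum_congr rfl fun e he => ?_
      rw [(hw e).resolve_left (Finset.mem_filter.1 he).2]
      ring

lemma degree_of_mem_support {Q : MvPolynomial ι K} {e : ℕ} (hQ : Q.IsHomogeneous e)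
    {a : ι →₀ ℕ} (ha : a ∈ Q.support) : a.degree = e := by
  by_contra h
  exact (mem_support_iff.1 ha) (hQ.coeff_eq_zero h)

lemma abs_wtE_ge_deg {A : ℕ} (hw : ∀ e, w e = A ∨ w e = -((A : ℤ) - 2)) {Q : MvPolynomial ι K}
    {e : ℕ} (hQ : Q.IsHomogeneous e) (he : 3 * e ≤ A) :
    ∀ a ∈ Q.support, (e : ℤ) ≤ |wtE w a| := by
  intro a ha
  obtain ⟨p, q, h1, h2⟩ := wtE_eq_of_degree w hw a
  rw [degree_of_mem_support hQ ha] at h1
  rw [h2, le_abs]
  have h1' : (p : ℤ) + q = e := by exact_mod_cast h1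
  have he' : 3 * (e : ℤ) ≤ A := by exact_mod_cast he
  have hp : (0 : ℤ) ≤ p := Nat.cast_nonneg _
  have hq : (0 : ℤ) ≤ q := Nat.cast_nonneg _
  rcases lt_trichotomy (p : ℤ) q with h | h | h
  · right
    have : (1 : ℤ) ≤ q - p := by omega
    nlinarith
  · left
    rw [h]; nlinarith
  · left
    have : (1 : ℤ) ≤ p - q := by omega
    nlinarith

lemma abs_wtE_ge_one {A : ℕ} (hw : ∀ e, w e = A ∨ w e = -((A : ℤ) - 2)) {Q : MvPolynomial ι K}
    (hQ : Q.IsHomogeneous 1) : ∀ a ∈ Q.support, (A : ℤ) - 2 ≤ |wtE w a| := by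
  intro a ha
  obtain ⟨p, q, h1, h2⟩ := wtE_eq_of_degree w hw a
  rw [degree_of_mem_support hQ ha] at h1
  rw [h2, le_abs]
  have : (p = 1 ∧ q = 0) ∨ (p = 0 ∧ q = 1) := by omega
  rcases this with ⟨rfl, rfl⟩ | ⟨rfl, rfl⟩
  · left; simp
  · right; simp

lemma wtE_eq_zero_of_deg_zero {Q : MvPolynomial ι K} (hQ : Q.IsHomogeneous 0) :
    ∀ a ∈ Q.support, wtE w a = 0 := by
  intro a ha
  have h := degree_of_mem_support hQ ha
  rw [Finsupp.degree_eq_zero_iff] at h
  rw [h, wtE_zero]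

lemma homog_multiset_prod {α : Type*} (val : α → MvPolynomial ι K) (deg : α → ℕ)
    (s : Multiset α) (h : ∀ i ∈ s, (val i).IsHomogeneous (deg i)) :
    (s.map val).prod.IsHomogeneous (s.map deg).sum := by
  induction s using Multiset.induction_on with
  | empty => simpa using isHomogeneous_one ι K
  | cons a s ih =>
    simp only [Multiset.map_cons, Multiset.prod_cons, Multiset.sum_cons]
    exact (h a (Multiset.mem_cons_self _ _)).mul (ih fun i hi => h i (Multiset.mem_cons_of_mem hi))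

/-- products of low-degree homogeneous factors, grouped -/
lemma Dec_group_aux {A τ : ℕ} (hw : ∀ e, w e = A ∨ w e = -((A : ℤ) - 2)) (hA : 6 * τ ≤ A)
    (hτ : 0 < τ) {r κ : ℝ} (hr : 0 < r) (hκ : 1 ≤ κ) (hκ2 : 2 ≤ κ ^ τ)
    {α : Type*} (val : α → MvPolynomial ι K) (deg : α → ℕ)
    (s : Multiset α) (h : ∀ i ∈ s, (val i).IsHomogeneous (deg i)) (hd : ∀ i ∈ s, deg i ≤ τ) :
    ∃ (F Q : MvPolynomial ι K) (e d : ℕ), (s.map val).prod = F * Q ∧ Q.IsHomogeneous e ∧ e < τ ∧
      d + e = (s.map deg).sum ∧ Dec w r F ((κ / r) ^ d) := by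
  induction s using Multiset.induction_on with
  | empty =>
    exact ⟨1, 1, 0, 0, by simp, isHomogeneous_one ι K, hτ, by simp, by simpa using Dec.one w r⟩
  | cons a s ih =>
    obtain ⟨F, Q, e, d, h1, h2, h3, h4, h5⟩ :=
      ih (fun i hi => h i (Multiset.mem_cons_of_mem hi)) (fun i hi => hd i (Multiset.mem_cons_of_mem hi))
    have ha := h a (Multiset.mem_cons_self _ _)
    have hda := hd a (Multiset.mem_cons_self _ _)
    simp only [Multiset.map_cons, Multiset.prod_cons, Multiset.sum_cons]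
    by_cases hc : e + deg a < τ
    · exact ⟨F, Q * val a, e + deg a, d, by rw [h1]; ring, h2.mul ha, hc, by omega, h5⟩
    · refine ⟨F * (Q * val a), 1, 0, d + (e + deg a), by rw [h1]; ring, isHomogeneous_one ι K, hτ,
        by omega, ?_⟩
      have h6 := abs_wtE_ge_deg w hw (h2.mul ha) (by omega)
      refine Dec.mono _ _ _ (h5.mul w hr h6) ?_
      rw [pow_add, mul_comm ((κ / r) ^ d)]
      refine mul_le_mul_of_nonneg_right ?_ (by positivity)
      rw [zpow_neg, zpow_natCast, div_pow, div_eq_mul_inv]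
      refine mul_le_mul_of_nonneg_right ?_ (by positivity)
      exact hκ2.trans (pow_le_pow_right₀ hκ (by omega))

lemma Dec_group {A τ : ℕ} (hw : ∀ e, w e = A ∨ w e = -((A : ℤ) - 2)) (hA : 6 * τ ≤ A)
    (hτ : 0 < τ) {r κ : ℝ} (hr : 0 < r) (hκ : 1 ≤ κ) (hκ2 : 2 ≤ κ ^ τ)
    {α : Type*} (val : α → MvPolynomial ι K) (deg : α → ℕ)
    (s : Multiset α) (h : ∀ i ∈ s, (val i).IsHomogeneous (deg i)) (hd : ∀ i ∈ s, deg i ≤ τ) :
    Dec w r (s.map val).prod (2 * (κ / r) ^ (s.map deg).sum) := by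
  obtain ⟨F, Q, e, d, h1, h2, h3, h4, h5⟩ := Dec_group_aux w hw hA hτ hr hκ hκ2 val deg s h hd
  rw [h1, ← h4]
  have h6 := abs_wtE_ge_deg w hw h2 (by omega)
  refine Dec.mono _ _ _ (h5.mul w hr h6) ?_
  rw [pow_add, mul_comm ((κ / r) ^ d), ← mul_assoc]
  refine mul_le_mul_of_nonneg_right ?_ (by positivity)
  refine mul_le_mul_of_nonneg_left ?_ (by positivity)
  rw [zpow_neg, zpow_natCast, div_pow, div_eq_mul_inv]
  exact le_mul_of_one_le_left (by positivity) (one_le_pow₀ hκ)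

/-- products of linear forms and constants -/
lemma Dec_linear {A : ℕ} (hw : ∀ e, w e = A ∨ w e = -((A : ℤ) - 2)) {r : ℝ} (hr : 0 < r)
    {α : Type*} (val : α → MvPolynomial ι K) (deg : α → ℕ)
    (s : Multiset α) (h : ∀ i ∈ s, (val i).IsHomogeneous (deg i)) (hd : ∀ i ∈ s, deg i ≤ 1) :
    Dec w r (s.map val).prod ((2 * r ^ (-((A : ℤ) - 2))) ^ (s.map deg).sum) := by
  induction s using Multiset.induction_on with
  | empty => simpa using Dec.one w r
  | cons a s ih =>
    have h5 := ih (fun i hi => h i (Multiset.mem_cons_of_mem hi))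
      (fun i hi => hd i (Multiset.mem_cons_of_mem hi))
    have ha := h a (Multiset.mem_cons_self _ _)
    have hda := hd a (Multiset.mem_cons_self _ _)
    simp only [Multiset.map_cons, Multiset.prod_cons, Multiset.sum_cons]
    rw [mul_comm (val a)]
    rcases Nat.le_one_iff_eq_zero_or_eq_one.1 hda with h0 | h1
    · rw [h0] at ha
      rw [h0, zero_add]
      exact h5.mul_zero w (wtE_eq_zero_of_deg_zero w ha)
    · rw [h1] at ha
      rw [h1, pow_add, pow_one]
      exact h5.mul w hr (abs_wtE_ge_one w hw ha)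

variable {L B P S R : Type*} (C : SPSPS K ι L B P S R)

lemma leaf_homog (l : L) : (C.leafVal l).IsHomogeneous (C.leafDeg l) := by
  unfold SPSPS.leafVal SPSPS.leafDeg
  rcases C.leaf l with x | c
  · exact isHomogeneous_X K x
  · exact isHomogeneous_C ι c

lemma homog_smul {Q : MvPolynomial ι K} {e : ℕ} (hQ : Q.IsHomogeneous e) (c : K) :
    (c • Q).IsHomogeneous e := by
  rw [smul_eq_C_mul]; exact hQ.C_mul c

lemma valB_homog (hC : C.IsHomogeneous) (b : B) : (C.valB b).IsHomogeneous (C.degB b) := by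
  refine IsHomogeneous.sum _ _ _ fun l hl => homog_smul ?_ _
  rw [← hC.1 b l hl]; exact leaf_homog C l

lemma degB_le (b : B) : C.degB b ≤ 1 := by
  refine Finset.sup_le fun l _ => ?_
  unfold SPSPS.leafDeg
  rcases C.leaf l with x | c <;> simp

lemma valP_homog (hC : C.IsHomogeneous) (p : P) : (C.valP p).IsHomogeneous (C.degP p) :=
  homog_multiset_prod _ _ _ fun b _ => valB_homog C hC b

lemma valS_homog (hC : C.IsHomogeneous) (s : S) : (C.valS s).IsHomogeneous (C.degS s) := by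
  refine IsHomogeneous.sum _ _ _ fun p hp => homog_smul ?_ _
  rw [← hC.2.1 s p hp]; exact valP_homog C hC p

lemma valR_homog (hC : C.IsHomogeneous) (r : R) : (C.valR r).IsHomogeneous (C.degR r) :=
  homog_multiset_prod _ _ _ fun s _ => valS_homog C hC s

lemma output_homog (hC : C.IsHomogeneous) : C.output.IsHomogeneous C.degOut := by
  refine IsHomogeneous.sum _ _ _ fun r hr => homog_smul ?_ _
  rw [← hC.2.2 r hr]; exact valR_homog C hC r

lemma Dec_valR [Fintype P] (hC : C.IsHomogeneous) {A τ : ℕ}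
    (hw : ∀ e, w e = A ∨ w e = -((A : ℤ) - 2)) (hA : 6 * τ ≤ A)
    (hτ : 0 < τ) {r κ : ℝ} (hr : 0 < r) (hκ : 1 ≤ κ) (hκ2 : 2 ≤ κ ^ τ)
    (hβ : 2 * r ^ (-((A : ℤ) - 2)) ≤ 1) (ρ : R) :
    Dec w r (C.valR ρ) (2 * (κ / r) ^ (C.degR ρ) +
      Fintype.card P * (2 * (2 * r ^ (-((A : ℤ) - 2))) ^ τ)) := by
  classical
  by_cases hd : ∀ s ∈ C.inR ρ, C.degS s ≤ τ
  · refine Dec.mono _ _ _ (Dec_group w hw hA hτ hr hκ hκ2 C.valS C.degS (C.inR ρ)
      (fun s _ => valS_homog C hC s) hd) ?_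
    exact le_add_of_nonneg_right (by positivity)
  · push Not at hd
    obtain ⟨s, hs, hds⟩ := hd
    obtain ⟨t, ht⟩ := Multiset.exists_cons_of_mem hs
    have e1 : C.valR ρ = ∑ p ∈ C.inS s, C.coefS s p • (C.valP p * (t.map C.valS).prod) := by
      rw [SPSPS.valR, ht, Multiset.map_cons, Multiset.prod_cons, SPSPS.valS, Finset.sum_mul]
      exact Finset.sum_congr rfl fun p _ => smul_mul_assoc _ _ _
    rw [e1]
    have key : ∀ p ∈ C.inS s, Dec w r (C.coefS s p • (C.valP p * (t.map C.valS).prod))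
        (2 * (2 * r ^ (-((A : ℤ) - 2))) ^ τ) := by
      intro p hp
      refine Dec.smul w _ ?_
      have h1 := Dec_linear w hw hr C.valB C.degB (C.inP p) (fun b _ => valB_homog C hC b)
        (fun b _ => degB_le C b)
      have h2 := h1.mul w hr (γ := 0) (Q := (t.map C.valS).prod) (fun a _ => abs_nonneg _)
      refine Dec.mono _ _ _ h2 ?_
      rw [neg_zero, zpow_zero, mul_one]
      refine mul_le_mul_of_nonneg_left ?_ (by norm_num)
      refine pow_le_pow_of_le_one (by positivity) hβ ?_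
      have h3 : C.degP p = C.degS s := hC.2.1 s p hp
      have h4 : C.degP p = ((C.inP p).map C.degB).sum := rfl
      omega
    refine Dec.mono _ _ _ (Dec.sum w _ _ _ key) ?_
    have h5 : ((C.inS s).card : ℝ) ≤ Fintype.card P := by exact_mod_cast Finset.card_le_univ _
    refine (mul_le_mul_of_nonneg_right h5 (by positivity)).trans ?_
    exact le_add_of_nonneg_left (by positivity)

lemma Dec_output [Fintype L] [Fintype B] [Fintype P] [Fintype S] [Fintype R]
    (hC : C.IsHomogeneous) {A τ : ℕ}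
    (hw : ∀ e, w e = A ∨ w e = -((A : ℤ) - 2)) (hA : 6 * τ ≤ A)
    (hτ : 0 < τ) {r κ : ℝ} (hr : 0 < r) (hκ : 1 ≤ κ) (hκ2 : 2 ≤ κ ^ τ)
    (hβ : 2 * r ^ (-((A : ℤ) - 2)) ≤ 1) :
    Dec w r C.output ((C.size : ℝ) ^ 2 * (2 * (κ / r) ^ C.degOut +
      2 * (2 * r ^ (-((A : ℤ) - 2))) ^ τ)) := by
  have key : ∀ ρ ∈ C.inOut, Dec w r (C.coefOut ρ • C.valR ρ) (2 * (κ / r) ^ (C.degOut) +
      Fintype.card P * (2 * (2 * r ^ (-((A : ℤ) - 2))) ^ τ)) := by
    intro ρ hρ
    refine Dec.smul w _ ?_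
    rw [← hC.2.2 ρ hρ]
    exact Dec_valR w C hC hw hA hτ hr hκ hκ2 hβ ρ
  refine Dec.mono _ _ _ (Dec.sum w _ _ _ key) ?_
  have h1 : (C.inOut.card : ℝ) ≤ C.size := by
    have : C.inOut.card ≤ Fintype.card R := Finset.card_le_univ _
    have h2 : Fintype.card R ≤ C.size := by unfold SPSPS.size; omega
    exact_mod_cast this.trans h2
  have h2 : (Fintype.card P : ℝ) ≤ C.size := by
    have h2 : Fintype.card P ≤ C.size := by unfold SPSPS.size; omega
    exact_mod_cast h2
  have h3 : (1 : ℝ) ≤ C.size := by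
    have h2 : 1 ≤ C.size := by unfold SPSPS.size; omega
    exact_mod_cast h2
  rw [sq, mul_assoc]
  refine mul_le_mul h1 ?_ (by positivity) (by positivity)
  rw [mul_add]
  exact add_le_add (le_mul_of_one_le_left (by positivity) h3)
    (mul_le_mul_of_nonneg_right h2 (by positivity))

end

end Crest.Agent.R327
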