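import Mathlib

set_option autoImplicit false
set_option linter.unusedSectionVars false

namespace Crest.Agent.R327

section
variable {α : Type*} [Fintype α] [DecidableEq α]

lemma prod_ofFn_apply {R : Type*} [CommSemiring R] :
    ∀ (d : ℕ) (A : Fin d → Matrix α α R) (i j : α), (List.ofFn A).prod i j =
      ∑ v : Fin (d + 1) → α, if v 0 = i ∧ v (Fin.last d) = j then
        ∏ k : Fin d, A k (v k.castSucc) (v k.succ) else 0
  | 0, A, i, j => by
    rw [← (Equiv.funUnique (Fin 1) α).symm.sum_comp]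
    simp [Matrix.one_apply, ite_and]
  | d + 1, A, i, j => by
    rw [List.ofFn_succ, List.prod_cons, Matrix.mul_apply]
    simp only [prod_ofFn_apply d]
    rw [← (Fin.consEquiv (fun _ : Fin (d + 2) => α)).sum_comp, Fintype.sum_prod_type]
    simp only [Fin.consEquiv_apply, Fin.cons_zero, Fin.prod_univ_succ, ← Fin.succ_last,
      Fin.cons_succ, Fin.castSucc_zero, ← Fin.succ_castSucc, ite_and]
    rw [Finset.sum_comm]
    simp only [Finset.sum_ite_eq', Finset.mem_univ, if_true, Finset.mul_sum]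
    rw [Finset.sum_comm]
    refine Finset.sum_congr rfl fun v _ => ?_
    simp

/-- paths with `d` steps from `i` to `j` -/
def Paths (d : ℕ) (i j : α) : Finset (Fin (d + 1) → α) :=
  Finset.univ.filter fun v => v 0 = i ∧ v (Fin.last d) = j

lemma prod_ofFn_apply' {R : Type*} [CommSemiring R] (d : ℕ) (A : Fin d → Matrix α α R) (i j : α) :
    (List.ofFn A).prod i j = ∑ v ∈ Paths d i j, ∏ k : Fin d, A k (v k.castSucc) (v k.succ) := by
  rw [prod_ofFn_apply, Paths, Finset.sum_filter]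

lemma prod_ofFn_ones : ∀ (m : ℕ) (i j : α),
    (List.ofFn (fun _ : Fin (m + 1) => (Matrix.of fun _ _ => (1 : ℕ) : Matrix α α ℕ))).prod i j =
      Fintype.card α ^ m
  | 0, i, j => by simp
  | m + 1, i, j => by
    rw [List.ofFn_succ, List.prod_cons, Matrix.mul_apply]
    simp only [prod_ofFn_ones m]
    simp [pow_succ, mul_comm]

lemma card_Paths (m : ℕ) (i j : α) : (Paths (m + 1) i j).card = Fintype.card α ^ m := by
  rw [← prod_ofFn_ones m i j, prod_ofFn_apply']
  simp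

/-- pairing `12|34` -/
def D0 (q : α × α × α × α) : ℝ := if q.1 = q.2.1 ∧ q.2.2.1 = q.2.2.2 then 1 else 0

/-- pairing `14|23` -/
def D1 (q : α × α × α × α) : ℝ := if q.1 = q.2.2.2 ∧ q.2.1 = q.2.2.1 then 1 else 0

lemma D0_nonneg (q : α × α × α × α) : 0 ≤ D0 q := by unfold D0; split_ifs <;> norm_num
lemma D1_nonneg (q : α × α × α × α) : 0 ≤ D1 q := by unfold D1; split_ifs <;> norm_num

lemma sum_D0_D0 : ∑ q : α × α × α × α, D0 q * D0 q = (Fintype.card α : ℝ) ^ 2 := by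
  simp [D0, Fintype.sum_prod_type, ite_and, sq]

lemma sum_D1_D1 : ∑ q : α × α × α × α, D1 q * D1 q = (Fintype.card α : ℝ) ^ 2 := by
  have : ∀ q : α × α × α × α, D1 q * D1 q =
      if q.1 = q.2.2.2 then (if q.2.1 = q.2.2.1 then 1 else 0) else 0 := by
    intro q; unfold D1; split_ifs <;> simp_all
  simp [this, Fintype.sum_prod_type, sq]

lemma sum_D0_D1 : ∑ q : α × α × α × α, D0 q * D1 q = (Fintype.card α : ℝ) := by
  have : ∀ q : α × α × α × α, D0 q * D1 q =
      if q.1 = q.2.2.2 then (if q.1 = q.2.2.1 then (if q.1 = q.2.1 then 1 else 0) else 0)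
        else 0 := by
    rintro ⟨a, b, c, d⟩; unfold D0 D1; split_ifs <;> simp_all
  simp [this, Fintype.sum_prod_type]

/-- transfer matrix -/
def Tm (u : ℝ) : Matrix (α × α × α × α) (α × α × α × α) ℝ :=
  Matrix.of fun q q' => D0 q * D0 q' + u * (D1 q * D1 q')

lemma Tm_prod_le (o : α) {T : ℝ} (hT : 1 ≤ T) :
    ∀ (m : ℕ) (u : Fin (m + 1) → ℝ) (φ : Fin (m + 2) → ℝ), (∀ k, 0 < φ k) → (∀ k, φ k ≤ T) →
      (∀ k, (φ k)⁻¹ ≤ T) → (∀ k, u k * φ k.succ = φ k.castSucc) → ∀ q : α × α × α × α,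
      (List.ofFn fun k => Tm (u k)).prod q (o, o, o, o) ≤
        T * ((Fintype.card α : ℝ) ^ 2 + T * Fintype.card α) ^ m * (D0 q + φ 0 * D1 q)
  | 0, u, φ, h0, h1, h2, h3, q => by
    have e0 : D0 (o, o, o, o) = 1 := by simp [D0]
    have e1 : D1 (o, o, o, o) = 1 := by simp [D1]
    simp only [List.ofFn_succ, List.ofFn_zero, List.prod_cons, List.prod_nil, mul_one, Tm,
      Matrix.of_apply, e0, e1, pow_zero]
    have h4 := h3 0
    have h5 := h2 (Fin.succ 0)
    have h6 := h0 (Fin.succ 0)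
    have h7 : u 0 = φ 0 * (φ (Fin.succ 0))⁻¹ := by
      rw [eq_mul_inv_iff_mul_eq₀ h6.ne']; exact h4
    have h8 : u 0 ≤ T * φ 0 := by
      rw [h7, mul_comm T]; exact mul_le_mul_of_nonneg_left h5 (h0 0).le
    have := D0_nonneg q
    have := D1_nonneg q
    nlinarith
  | m + 1, u, φ, h0, h1, h2, h3, q => by
    rw [List.ofFn_succ, List.prod_cons, Matrix.mul_apply]
    have ih := Tm_prod_le o hT m (fun k => u k.succ) (fun k => φ k.succ) (fun k => h0 _)
      (fun k => h1 _) (fun k => h2 _) (fun k => by rw [h3, Fin.succ_castSucc])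
    set N : ℝ := (Fintype.card α : ℝ) with hN
    have hN0 : 0 ≤ N := Nat.cast_nonneg _
    set c : ℝ := T * (N ^ 2 + T * N) ^ m with hc
    have hc0 : 0 ≤ c := by positivity
    have h4 : u 0 * φ (Fin.succ 0) = φ 0 := h3 0
    have h5 := h2 (Fin.succ 0)
    have h6 := h0 (Fin.succ 0)
    have h7 : u 0 = φ 0 * (φ (Fin.succ 0))⁻¹ := by
      rw [eq_mul_inv_iff_mul_eq₀ h6.ne']; exact h4
    have h8 : u 0 ≤ T * φ 0 := by
      rw [h7, mul_comm T]; exact mul_le_mul_of_nonneg_left h5 (h0 0).le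
    have hu : 0 ≤ u 0 := by rw [h7]; exact mul_nonneg (h0 0).le (inv_nonneg.2 h6.le)
    have hD0 := D0_nonneg q
    have hD1 := D1_nonneg q
    calc ∑ q', Tm (u 0) q q' * (List.ofFn fun k : Fin (m + 1) => Tm (u k.succ)).prod q' (o, o, o, o)
        ≤ ∑ q', Tm (u 0) q q' * (c * (D0 q' + φ (Fin.succ 0) * D1 q')) := by
          refine Finset.sum_le_sum fun q' _ => mul_le_mul_of_nonneg_left (ih q') ?_
          have := D0_nonneg q'
          have := D1_nonneg q'
          simp only [Tm, Matrix.of_apply]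
          positivity
      _ = c * (D0 q * (∑ q' : α × α × α × α, D0 q' * D0 q') +
            D0 q * φ (Fin.succ 0) * (∑ q' : α × α × α × α, D0 q' * D1 q') +
            u 0 * D1 q * (∑ q' : α × α × α × α, D0 q' * D1 q') +
            u 0 * φ (Fin.succ 0) * D1 q * (∑ q' : α × α × α × α, D1 q' * D1 q')) := by
          simp only [Finset.mul_sum, ← Finset.sum_add_distrib, Tm, Matrix.of_apply]
          exact Finset.sum_congr rfl fun q' _ => by ring
      _ ≤ c * ((N ^ 2 + T * N) * (D0 q + φ 0 * D1 q)) := by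
          refine mul_le_mul_of_nonneg_left ?_ hc0
          rw [sum_D0_D0, sum_D0_D1, sum_D1_D1, h4, ← hN]
          have a1 : D0 q * φ (Fin.succ 0) * N ≤ D0 q * T * N :=
            mul_le_mul_of_nonneg_right (mul_le_mul_of_nonneg_left (h1 _) hD0) hN0
          have a2 : u 0 * D1 q * N ≤ T * φ 0 * D1 q * N :=
            mul_le_mul_of_nonneg_right (mul_le_mul_of_nonneg_right h8 hD1) hN0
          nlinarith
      _ = T * (N ^ 2 + T * N) ^ (m + 1) * (D0 q + φ 0 * D1 q) := by rw [hc]; ring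

/-- the `k`-th edge of a path -/
def edge {d : ℕ} (v : Fin (d + 1) → α) (k : Fin d) : α × α := (v k.castSucc, v k.succ)

/-- pairing weight of four edges -/
def pairW {β : Type*} [DecidableEq β] (u : ℝ) (e₁ e₂ e₃ e₄ : β) : ℝ :=
  (if e₁ = e₂ ∧ e₃ = e₄ then 1 else 0) + u * (if e₁ = e₄ ∧ e₂ = e₃ then 1 else 0)

lemma pairW_edge (u : ℝ) (q q' : α × α × α × α) :
    pairW u (q.1, q'.1) (q.2.1, q'.2.1) (q.2.2.1, q'.2.2.1) (q.2.2.2, q'.2.2.2) = Tm u q q' := by
  simp only [pairW, Tm, Matrix.of_apply, D0, D1, Prod.mk.injEq, ite_zero_mul_ite_zero, mul_one]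
  congr 1
  · congr 1
    exact propext (by tauto)
  · congr 2
    exact propext (by tauto)

lemma ising_le (o : α) {T : ℝ} (hT : 1 ≤ T) (m : ℕ) (u : Fin (m + 1) → ℝ) (φ : Fin (m + 2) → ℝ)
    (h0 : ∀ k, 0 < φ k) (h1 : ∀ k, φ k ≤ T) (h2 : ∀ k, (φ k)⁻¹ ≤ T)
    (h3 : ∀ k, u k * φ k.succ = φ k.castSucc) (h4 : φ 0 = 1) :
    ∑ ν ∈ Paths (m + 1) o o ×ˢ Paths (m + 1) o o ×ˢ Paths (m + 1) o o ×ˢ Paths (m + 1) o o,
      ∏ k, pairW (u k) (edge ν.1 k) (edge ν.2.1 k) (edge ν.2.2.1 k) (edge ν.2.2.2 k) ≤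
      2 * T * ((Fintype.card α : ℝ) ^ 2 + T * Fintype.card α) ^ m := by
  have h := Tm_prod_le o hT m u φ h0 h1 h2 h3 (o, o, o, o)
  have e0 : D0 (o, o, o, o) = 1 := by simp [D0]
  have e1 : D1 (o, o, o, o) = 1 := by simp [D1]
  rw [e0, e1, h4, prod_ofFn_apply'] at h
  refine le_trans (le_of_eq ?_) (h.trans (le_of_eq (by ring)))
  refine Finset.sum_nbij' (fun ν j => (ν.1 j, ν.2.1 j, ν.2.2.1 j, ν.2.2.2 j))
    (fun q => (fun j => (q j).1, fun j => (q j).2.1, fun j => (q j).2.2.1, fun j => (q j).2.2.2))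
    ?_ ?_ ?_ ?_ ?_
  · rintro ⟨a, b, c, d⟩ hν
    simp only [Paths, Finset.mem_product, Finset.mem_filter, Finset.mem_univ, true_and] at hν ⊢
    simp [hν]
  · intro q hq
    simp only [Paths, Finset.mem_product, Finset.mem_filter, Finset.mem_univ, true_and] at hq ⊢
    simp [hq]
  · intro ν _; rfl
  · intro q _; rfl
  · intro ν _
    refine Finset.prod_congr rfl fun k _ => ?_
    rw [← pairW_edge]
    rfl

end

end Crest.Agent.R327
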