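import Mathlib
import Crest.Prelude.Def_SPSPS
import Crest.Agent.R327.Op
import Crest.Agent.R327.Path

set_option autoImplicit false
set_option linter.unusedSectionVars false

namespace Crest.Agent.R327

open MvPolynomial Crest.ArithCircuit

section abstract
variable {ι : Type*} [Fintype ι] [DecidableEq ι] (w : ι → ℤ)

/-- weighted trace inequality -/
lemma weighted_trace_le {r : ℝ} (hr : 0 < r) (X : Finset ℤ) (hX : ∀ s, wtS w s ∈ X) (w₀ : ℤ)
    (M : Matrix (ι → Bool) (ι → Bool) ℝ) (hM : ∀ s t, M s t ≠ 0 → wtS w t = wtS w s + w₀) :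
    (∑ s, r ^ (2 * wtS w s) * ∑ t, M s t ^ 2) ^ 2 ≤
      (∑ x ∈ X, r ^ (2 * x) * ((blk w M x (x + w₀)).rank : ℝ)) *
        ∑ s, r ^ (2 * wtS w s) * ∑ s', (∑ t, M s t * M s' t) ^ 2 := by
  have hb : ∀ x s t, blk w M x (x + w₀) s t = if wtS w s = x then M s t else 0 := by
    intro x s t
    simp only [blk, Matrix.of_apply]
    by_cases h1 : wtS w s = x
    · by_cases h2 : M s t = 0
      · simp [h2]
      · have := hM s t h2
        simp [h1, this]
    · simp [h1]
  set a : ℤ → ℝ := fun x => ∑ s, ∑ t, blk w M x (x + w₀) s t ^ 2 with ha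
  set b : ℤ → ℝ := fun x => ∑ s, if wtS w s = x then ∑ s', (∑ t, M s t * M s' t) ^ 2 else 0 with hb'
  have h1 : ∑ s, r ^ (2 * wtS w s) * ∑ t, M s t ^ 2 = ∑ x ∈ X, r ^ (2 * x) * a x := by
    simp only [ha, hb, Finset.mul_sum]
    rw [Finset.sum_comm (s := X)]
    refine Finset.sum_congr rfl fun s _ => ?_
    rw [Finset.sum_eq_single (wtS w s)]
    · simp
    · intro x _ hx
      simp [hx.symm]
    · intro h; exact absurd (hX s) h
  have h2 : ∑ s, r ^ (2 * wtS w s) * ∑ s', (∑ t, M s t * M s' t) ^ 2 =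
      ∑ x ∈ X, r ^ (2 * x) * b x := by
    have h2' : ∀ x, r ^ (2 * x) * b x = ∑ s, r ^ (2 * x) *
        if wtS w s = x then ∑ s', (∑ t, M s t * M s' t) ^ 2 else 0 := fun x => by
      rw [hb', Finset.mul_sum]
    simp only [h2']
    rw [Finset.sum_comm (s := X)]
    refine Finset.sum_congr rfl fun s _ => ?_
    rw [Finset.sum_eq_single (wtS w s)]
    · simp
    · intro x _ hx
      simp [hx.symm]
    · intro h; exact absurd (hX s) h
  have h3 : ∀ x, a x ^ 2 ≤ ((blk w M x (x + w₀)).rank : ℝ) * b x := by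
    intro x
    refine (sq_trace_le _).trans (mul_le_mul_of_nonneg_left ?_ (Nat.cast_nonneg _))
    refine Finset.sum_le_sum fun s _ => ?_
    by_cases h : wtS w s = x
    · simp only [h, if_true]
      refine Finset.sum_le_sum fun s' _ => ?_
      simp only [hb, h, if_true]
      by_cases h' : wtS w s' = x
      · simp [h']
      · simp only [h', if_false, mul_zero, Finset.sum_const_zero]
        simpa using sq_nonneg _
    · simp [hb, h]
  have hb0 : ∀ x, 0 ≤ b x := fun x => Finset.sum_nonneg fun s _ => by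
    split_ifs
    · exact Finset.sum_nonneg fun _ _ => sq_nonneg _
    · exact le_rfl
  rw [h1, h2]
  refine Finset.sum_sq_le_sum_mul_sum_of_sq_le_mul X (fun x _ => by positivity)
    (fun x _ => mul_nonneg (zpow_pos hr _).le (hb0 x)) fun x _ => ?_
  rw [mul_pow]
  calc (r ^ (2 * x)) ^ 2 * a x ^ 2
      ≤ (r ^ (2 * x)) ^ 2 * (((blk w M x (x + w₀)).rank : ℝ) * b x) :=
        mul_le_mul_of_nonneg_left (h3 x) (sq_nonneg _)
    _ = _ := by ring

lemma prod_sum_eq {β : Type*} [Fintype β] (G : ι → β → ℝ) :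
    ∏ e, ∑ b, G e b = ∑ s : ι → β, ∏ e, G e (s e) := by
  rw [Finset.prod_univ_sum, Fintype.piFinset_univ]

lemma rho_eq {r : ℝ} (hr : 0 < r) (s : ι → Bool) :
    r ^ (2 * wtS w s) = ∏ e, (if s e then r ^ (2 * w e) else 1) := by
  rw [wtS, Finset.mul_sum]
  induction (Finset.univ : Finset ι) using Finset.induction_on with
  | empty => simp
  | insert a t ha ih =>
    rw [Finset.sum_insert ha, Finset.prod_insert ha, zpow_add₀ hr.ne', ih]
    cases s a <;> simp

lemma Wtot_eq {r : ℝ} (hr : 0 < r) : Wtot w r = ∏ e, (1 + r ^ (2 * w e)) := by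
  simp only [Wtot, rho_eq w hr]
  rw [← prod_sum_eq (fun e (b : Bool) => if b then r ^ (2 * w e) else 1)]
  refine Finset.prod_congr rfl fun e _ => ?_
  simp [add_comm]

/-- local second moment -/
def L2 (u : ℝ) (a : ℕ) : ℝ := ∑ s : Bool, ∑ t : Bool, (if s then u else 1) * loc ℝ a s t ^ 2

/-- local fourth moment -/
def L4 (u : ℝ) (a₁ a₂ a₃ a₄ : ℕ) : ℝ := ∑ s : Bool, ∑ s' : Bool, ∑ t : Bool, ∑ t' : Bool,
  (if s then u else 1) * (loc ℝ a₁ s t * (loc ℝ a₂ s' t * (loc ℝ a₃ s' t' * loc ℝ a₄ s t')))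

lemma second_moment {r : ℝ} (hr : 0 < r) (a : ι →₀ ℕ) :
    ∑ s, r ^ (2 * wtS w s) * ∑ t, Emat ℝ a s t ^ 2 = ∏ e, L2 (r ^ (2 * w e)) (a e) := by
  simp only [L2, prod_sum_eq, rho_eq w hr, Finset.mul_sum, Emat, Matrix.of_apply,
    Finset.prod_mul_distrib, Finset.prod_pow]

lemma fourth_moment {r : ℝ} (hr : 0 < r) (a₁ a₂ a₃ a₄ : ι →₀ ℕ) :
    ∑ s, ∑ s', ∑ t, ∑ t', r ^ (2 * wtS w s) *
      (Emat ℝ a₁ s t * (Emat ℝ a₂ s' t * (Emat ℝ a₃ s' t' * Emat ℝ a₄ s t'))) =
      ∏ e, L4 (r ^ (2 * w e)) (a₁ e) (a₂ e) (a₃ e) (a₄ e) := by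
  simp only [L4, prod_sum_eq, rho_eq w hr, Emat, Matrix.of_apply, Finset.prod_mul_distrib]

lemma fourth_moment_sum {r : ℝ} (hr : 0 < r) {γ : Type*} (P : Finset γ) (a : γ → ι →₀ ℕ) :
    ∑ s, r ^ (2 * wtS w s) * ∑ s', (∑ t, (∑ v ∈ P, Emat ℝ (a v)) s t *
      (∑ v ∈ P, Emat ℝ (a v)) s' t) ^ 2 =
      ∑ ν ∈ P ×ˢ P ×ˢ P ×ˢ P,
        ∏ e, L4 (r ^ (2 * w e)) (a ν.1 e) (a ν.2.1 e) (a ν.2.2.1 e) (a ν.2.2.2 e) := by
  simp only [← fourth_moment w hr]
  rw [Finset.sum_comm]
  refine Finset.sum_congr rfl fun s _ => ?_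
  rw [Finset.sum_comm, Finset.mul_sum]
  refine Finset.sum_congr rfl fun s' _ => ?_
  rw [Finset.sum_comm, sq, Finset.sum_mul_sum, Finset.mul_sum]
  refine Finset.sum_congr rfl fun t _ => ?_
  rw [Finset.sum_comm, Finset.mul_sum]
  refine Finset.sum_congr rfl fun t' _ => ?_
  simp only [Finset.sum_product, ← Finset.mul_sum, ← Finset.sum_mul, Matrix.sum_apply]
  ring

lemma second_moment_sum {r : ℝ} (hr : 0 < r) {γ : Type*} (P : Finset γ) (a : γ → ι →₀ ℕ) :
    ∑ v ∈ P, ∏ e, L2 (r ^ (2 * w e)) (a v e) ≤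
      ∑ s, r ^ (2 * wtS w s) * ∑ t, (∑ v ∈ P, Emat ℝ (a v)) s t ^ 2 := by
  simp only [← second_moment w hr]
  rw [Finset.sum_comm]
  refine Finset.sum_le_sum fun s _ => ?_
  rw [← Finset.mul_sum]
  refine mul_le_mul_of_nonneg_left ?_ (zpow_pos hr _).le
  rw [Finset.sum_comm]
  refine Finset.sum_le_sum fun t _ => ?_
  rw [Matrix.sum_apply]
  refine Finset.sum_sq_le_sq_sum_of_nonneg fun v _ => ?_
  refine Finset.prod_nonneg fun e _ => ?_
  unfold loc; split_ifs <;> norm_num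

end abstract

section layer
variable {β : Type*} [Fintype β] [DecidableEq β]

lemma layer2 {u : ℝ} (hu : 0 < u) (e : β) :
    ∏ p : β, L2 u (if p = e then 1 else 0) = (∏ _p : β, (1 + u)) * (1 + u)⁻¹ := by
  have h0 : L2 u 0 = 1 + u := by simp [L2, loc, add_comm]
  have h1 : L2 u 1 = 1 := by simp [L2, loc]
  have h : ∀ p : β, L2 u (if p = e then 1 else 0) = (1 + u) * (if p = e then (1 + u)⁻¹ else 1) := by
    intro p
    split_ifs
    · rw [h1, mul_inv_cancel₀ (by linarith)]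
    · rw [h0, mul_one]
  simp only [h, Finset.prod_mul_distrib, Finset.prod_ite_eq', Finset.mem_univ, if_true]

lemma layer4 {u : ℝ} (hu : 0 < u) (e₁ e₂ e₃ e₄ : β) :
    ∏ p : β, L4 u (if p = e₁ then 1 else 0) (if p = e₂ then 1 else 0) (if p = e₃ then 1 else 0)
      (if p = e₄ then 1 else 0) = (∏ _p : β, (1 + u)) * ((1 + u)⁻¹ ^ 2 * pairW u e₁ e₂ e₃ e₄) := by
  have hu1 : (1 + u) ≠ 0 := by linarith
  have h : ∀ p : β, L4 u (if p = e₁ then 1 else 0) (if p = e₂ then 1 else 0)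
      (if p = e₃ then 1 else 0) (if p = e₄ then 1 else 0) =
      (1 + u) * (L4 u (if p = e₁ then 1 else 0) (if p = e₂ then 1 else 0)
      (if p = e₃ then 1 else 0) (if p = e₄ then 1 else 0) * (1 + u)⁻¹) := by
    intro p; field_simp
  rw [Finset.prod_congr rfl fun p _ => h p, Finset.prod_mul_distrib]
  congr 1
  have h0000 : L4 u 0 0 0 0 = 1 + u := by simp [L4, loc, add_comm]
  have h1111 : L4 u 1 1 1 1 = 1 := by simp [L4, loc]
  have h1100 : L4 u 1 1 0 0 = 1 := by simp [L4, loc]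
  have h0011 : L4 u 0 0 1 1 = 1 := by simp [L4, loc]
  have h1001 : L4 u 1 0 0 1 = 1 := by simp [L4, loc]
  have h0110 : L4 u 0 1 1 0 = u := by simp [L4, loc]
  have h1000 : L4 u 1 0 0 0 = 0 := by simp [L4, loc]
  have h1010 : L4 u 1 0 1 0 = 0 := by simp [L4, loc]
  have h0010 : L4 u 0 0 1 0 = 0 := by simp [L4, loc]
  have h1110 : L4 u 1 1 1 0 = 0 := by simp [L4, loc]
  have h0100 : L4 u 0 1 0 0 = 0 := by simp [L4, loc]
  by_cases h12 : e₁ = e₂
  · subst h12
    by_cases h34 : e₃ = e₄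
    · subst h34
      by_cases h13 : e₁ = e₃
      · subst h13
        rw [Finset.prod_eq_single e₁]
        · simp only [if_true, h1111, pairW, and_self]
          field_simp
        · intro p _ hp
          simp only [hp, if_false, h0000]
          field_simp
        · simp
      · rw [Finset.prod_eq_mul e₁ e₃ h13]
        · simp only [if_true, h13, Ne.symm h13, if_false, h1100, h0011, pairW, and_self]
          field_simp
          ring
        · intro p _ hp
          simp only [hp.1, hp.2, if_false, h0000]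
          field_simp
        · simp
        · simp
    · have : pairW u e₁ e₁ e₃ e₄ = 0 := by
        have : ¬ (e₁ = e₄ ∧ e₁ = e₃) := fun h => h34 (h.2.symm.trans h.1)
        simp [pairW, h34, this]
      rw [this, mul_zero]
      refine Finset.prod_eq_zero (Finset.mem_univ e₃) ?_
      by_cases h13 : e₃ = e₁
      · simp only [h13, if_true] at h34 ⊢
        simp [h34, h1110]
      · simp [h13, h34, h0010]
  · by_cases h14 : e₁ = e₄
    · subst h14
      by_cases h23 : e₂ = e₃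
      · subst h23
        rw [Finset.prod_eq_mul e₁ e₂ h12]
        · simp only [if_true, h12, Ne.symm h12, if_false, h1001, h0110, pairW, and_self]
          field_simp
          ring
        · intro p _ hp
          simp only [hp.1, hp.2, if_false, h0000]
          field_simp
        · simp
        · simp
      · have : pairW u e₁ e₂ e₃ e₁ = 0 := by simp [pairW, h12, h23]
        rw [this, mul_zero]
        refine Finset.prod_eq_zero (Finset.mem_univ e₂) ?_
        simp [Ne.symm h12, h23, h0100]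
    · have : pairW u e₁ e₂ e₃ e₄ = 0 := by simp [pairW, h12, h14]
      rw [this, mul_zero]
      refine Finset.prod_eq_zero (Finset.mem_univ e₁) ?_
      by_cases h13 : e₁ = e₃
      · subst h13
        simp [h12, h14, h1010]
      · simp [h12, h13, h14, h1000]

end layer

section paths
variable {α : Type*} [Fintype α] [DecidableEq α] {d : ℕ}

/-- exponent vector of a path -/
noncomputable def pexp (v : Fin (d + 1) → α) : (Fin d × α × α) →₀ ℕ :=
  ∑ k : Fin d, Finsupp.single (k, edge v k) 1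

lemma pexp_apply (v : Fin (d + 1) → α) (k : Fin d) (p : α × α) :
    pexp v (k, p) = if p = edge v k then 1 else 0 := by
  rw [pexp, Finsupp.finsetSum_apply, Finset.sum_eq_single k]
  · simp [Finsupp.single_apply, eq_comm]
  · intro j _ hj
    simp [hj]
  · simp

lemma wtE_pexp (wl : Fin d → ℤ) (v : Fin (d + 1) → α) :
    wtE (fun e : Fin d × α × α => wl e.1) (pexp v) = ∑ k, wl k := by
  rw [wtE, Fintype.sum_prod_type]
  refine Finset.sum_congr rfl fun k _ => ?_
  simp [pexp_apply]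

lemma prod_X_eq {K : Type*} [CommRing K] (v : Fin (d + 1) → α) :
    ∏ k : Fin d, (X (k, v k.castSucc, v k.succ) : MvPolynomial (Fin d × α × α) K) =
      monomial (pexp v) 1 := by
  rw [pexp, monomial_sum_one]
  rfl

end paths

lemma imm_eq (K : Type*) [CommRing K] (m : ℕ) :
    imm K (m + 1) = ∑ v ∈ Paths (m + 1) (0 : Fin (m + 1)) 0, monomial (pexp v) 1 := by
  rw [imm, prod_ofFn_apply']
  refine Finset.sum_congr rfl fun v _ => ?_
  rw [← prod_X_eq]
  rfl

lemma Mop_imm (K : Type*) [CommRing K] (m : ℕ) :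
    Mop K (imm K (m + 1)) = ∑ v ∈ Paths (m + 1) (0 : Fin (m + 1)) 0, Emat K (pexp v) := by
  rw [imm_eq, map_sum]
  simp [Mop_monomial]

lemma Emat_map {ι : Type*} [Fintype ι] [DecidableEq ι] (K : Type*) [Field K] [CharZero K]
    (a : ι →₀ ℕ) (s t : ι → Bool) : Emat K a s t = algebraMap ℚ K (Emat ℚ a s t) := by
  simp only [Emat, Matrix.of_apply, map_prod, loc]
  refine Finset.prod_congr rfl fun e _ => ?_
  split_ifs <;> simp

lemma rank_blk_imm (K : Type*) [Field K] [CharZero K] (m : ℕ)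
    (w : Fin (m + 1) × Fin (m + 1) × Fin (m + 1) → ℤ) (x y : ℤ) :
    (blk w (Mop K (imm K (m + 1))) x y).rank = (blk w (Mop ℚ (imm ℚ (m + 1))) x y).rank := by
  rw [← rank_map_eq (algebraMap ℚ K)]
  congr 1
  ext s t
  simp only [blk, Matrix.of_apply, Matrix.map_apply, Mop_imm, Matrix.sum_apply]
  split_ifs
  · rw [map_sum]
    exact Finset.sum_congr rfl fun v _ => Emat_map K _ _ _
  · simp

/-- the lower bound for the measure of the iterated matrix product -/
theorem mu_imm_ge (K : Type*) [Field K] [CharZero K] (m : ℕ) (wl : Fin (m + 1) → ℤ) {r T : ℝ}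
    (hr : 0 < r) (hT : 1 ≤ T) (φ : Fin (m + 2) → ℝ)
    (h0 : ∀ k, 0 < φ k) (h1 : ∀ k, φ k ≤ T) (h2 : ∀ k, (φ k)⁻¹ ≤ T)
    (h3 : ∀ k, r ^ (2 * wl k) * φ k.succ = φ k.castSucc) (h4 : φ 0 = 1) (X : Finset ℤ)
    (hX : ∀ s, wtS (fun e : Fin (m + 1) × Fin (m + 1) × Fin (m + 1) => wl e.1) s ∈ X) :
    Wtot (fun e : Fin (m + 1) × Fin (m + 1) × Fin (m + 1) => wl e.1) r ≤
      mu (fun e : Fin (m + 1) × Fin (m + 1) × Fin (m + 1) => wl e.1) r X (∑ k, wl k)
        (imm K (m + 1)) * (2 * T * (1 + T / (m + 1)) ^ m) := by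
  set w : Fin (m + 1) × Fin (m + 1) × Fin (m + 1) → ℤ := fun e => wl e.1 with hw
  have hmu : mu w r X (∑ k, wl k) (imm K (m + 1)) = mu w r X (∑ k, wl k) (imm ℝ (m + 1)) := by
    simp only [mu, rank_blk_imm]
  rw [hmu, mu, Mop_imm]
  set P := Paths (m + 1) (0 : Fin (m + 1)) 0 with hP
  have hM : ∀ s t, (∑ v ∈ P, Emat ℝ (pexp v)) s t ≠ 0 → wtS w t = wtS w s + ∑ k, wl k := by
    intro s t h
    rw [Matrix.sum_apply] at h
    obtain ⟨v, _, hv⟩ := Finset.exists_ne_zero_of_sum_ne_zero h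
    rw [wt_of_Emat_ne_zero w hv, wtE_pexp]
  have key := weighted_trace_le w hr X hX _ _ hM
  set μ := ∑ x ∈ X, r ^ (2 * x) *
    ((blk w (∑ v ∈ P, Emat ℝ (pexp v)) x (x + ∑ k, wl k)).rank : ℝ) with hμ
  have hμ0 : 0 ≤ μ := Finset.sum_nonneg fun x _ => by positivity
  set u : Fin (m + 1) → ℝ := fun k => r ^ (2 * wl k) with hu
  have hu0 : ∀ k, 0 < u k := fun k => zpow_pos hr _
  set W := Wtot w r with hW
  have hW' : W = ∏ k, ∏ _p : Fin (m + 1) × Fin (m + 1), (1 + u k) := by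
    rw [hW, Wtot_eq w hr, Fintype.prod_prod_type]
  set J : ℝ := ∏ k, (1 + u k)⁻¹ with hJ
  have hJ0 : 0 < J := Finset.prod_pos fun k _ => by have := hu0 k; positivity
  have hW0 : 0 < W := by
    rw [hW']
    exact Finset.prod_pos fun k _ => Finset.prod_pos fun _ _ => by have := hu0 k; positivity
  set N : ℝ := (m : ℝ) + 1 with hN
  have hN0 : 0 < N := by positivity
  have hZ1 : N ^ m * (W * J) ≤
      ∑ s, r ^ (2 * wtS w s) * ∑ t, (∑ v ∈ P, Emat ℝ (pexp v)) s t ^ 2 := by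
    refine le_trans (le_of_eq ?_) (second_moment_sum w hr P pexp)
    have : ∀ v ∈ P, ∏ e, L2 (r ^ (2 * w e)) (pexp v e) = W * J := by
      intro v _
      rw [Fintype.prod_prod_type, hW', hJ, ← Finset.prod_mul_distrib]
      refine Finset.prod_congr rfl fun k _ => ?_
      simp only [pexp_apply]
      exact layer2 (hu0 k) _
    rw [Finset.sum_congr rfl this, Finset.sum_const, hP, card_Paths]
    simp [hN]
  have hZ2 : ∑ s, r ^ (2 * wtS w s) * ∑ s', (∑ t, (∑ v ∈ P, Emat ℝ (pexp v)) s t *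
      (∑ v ∈ P, Emat ℝ (pexp v)) s' t) ^ 2 ≤ W * J ^ 2 * (2 * T * (N ^ 2 + T * N) ^ m) := by
    rw [fourth_moment_sum w hr]
    have : ∀ ν ∈ P ×ˢ P ×ˢ P ×ˢ P, ∏ e, L4 (r ^ (2 * w e)) (pexp ν.1 e) (pexp ν.2.1 e)
        (pexp ν.2.2.1 e) (pexp ν.2.2.2 e) = W * J ^ 2 *
        ∏ k, pairW (u k) (edge ν.1 k) (edge ν.2.1 k) (edge ν.2.2.1 k) (edge ν.2.2.2 k) := by
      intro ν _
      rw [Fintype.prod_prod_type, hW', hJ, ← Finset.prod_pow, ← Finset.prod_mul_distrib,
        ← Finset.prod_mul_distrib]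
      refine Finset.prod_congr rfl fun k _ => ?_
      simp only [pexp_apply]
      rw [mul_assoc]
      exact layer4 (hu0 k) _ _ _ _
    rw [Finset.sum_congr rfl this, ← Finset.mul_sum]
    refine mul_le_mul_of_nonneg_left ?_ (by positivity)
    have := ising_le (0 : Fin (m + 1)) hT m u φ h0 h1 h2 h3 h4
    simpa [hN] using this
  have h5 : (N ^ m * (W * J)) ^ 2 ≤ μ * (W * J ^ 2 * (2 * T * (N ^ 2 + T * N) ^ m)) :=
    (pow_le_pow_left₀ (by positivity) hZ1 2).trans (key.trans (mul_le_mul_of_nonneg_left hZ2 hμ0))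
  have h6 : (N ^ 2 + T * N) ^ m = (N ^ m) ^ 2 * (1 + T / N) ^ m := by
    rw [← pow_mul, mul_comm m 2, pow_mul, ← mul_pow]
    congr 1
    field_simp
  rw [h6] at h5
  have h7 : 0 < (N ^ m) ^ 2 * W * J ^ 2 := by positivity
  refine le_of_mul_le_mul_left ?_ h7
  calc _ = (N ^ m * (W * J)) ^ 2 := by ring
    _ ≤ _ := h5
    _ = _ := by ring

end Crest.Agent.R327
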