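import Mathlib
import Crest.Prelude.Def_SPSPS
import Crest.Agent.R327.Circuit
import Crest.Agent.R327.Lower

set_option autoImplicit false
set_option linter.unusedSectionVars false

namespace Crest.Agent.R327

open MvPolynomial Crest.ArithCircuit

/-- prefix sums of the balanced word -/
def hh (A : ℕ) : ℕ → ℤ
  | 0 => 0
  | j + 1 => if hh A j ≤ 0 then hh A j + A else hh A j - ((A : ℤ) - 2)

lemma hh_bound {A : ℕ} (hA : 2 ≤ A) : ∀ j, -(A : ℤ) ≤ hh A j ∧ hh A j ≤ A
  | 0 => by simp [hh]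
  | j + 1 => by
    have := hh_bound hA j
    simp only [hh]
    split_ifs <;> omega

lemma hh_step (A j : ℕ) : hh A (j + 1) - hh A j = A ∨ hh A (j + 1) - hh A j = -((A : ℤ) - 2) := by
  simp only [hh]
  split_ifs
  · left; ring
  · right; ring

lemma imm_homog (K : Type*) [Field K] (m : ℕ) : (imm K (m + 1)).IsHomogeneous (m + 1) := by
  rw [imm_eq]
  refine IsHomogeneous.sum _ _ _ fun v _ => ?_
  rw [← prod_X_eq]
  have := IsHomogeneous.prod (σ := Fin (m + 1) × Fin (m + 1) × Fin (m + 1)) (R := K) Finset.univ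
    (fun k : Fin (m + 1) => X (k, v k.castSucc, v k.succ)) (fun _ => 1)
    (fun k _ => isHomogeneous_X K _)
  simpa using this

theorem core (K : Type*) [Field K] [CharZero K] (m : ℕ) {L B P S R : Type*}
    [Fintype L] [Fintype B] [Fintype P] [Fintype S] [Fintype R]
    (C : SPSPS K (Fin (m + 1) × Fin (m + 1) × Fin (m + 1)) L B P S R) (hC : C.IsHomogeneous)
    (hout : C.output = imm K (m + 1)) {A τ : ℕ} (hA : 6 * τ ≤ A) (hτ : 0 < τ) {r κ : ℝ}
    (hr : 1 ≤ r) (hκ : 1 ≤ κ) (hκ2 : 2 ≤ κ ^ τ) (hβ : 2 * r ^ (-((A : ℤ) - 2)) ≤ 1) :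
    1 ≤ (2 * A * ((m : ℝ) + 1) ^ 3 + 1) * r ^ A * ((C.size : ℝ) ^ 2 * (2 * (κ / r) ^ (m + 1) +
      2 * (2 * r ^ (-((A : ℤ) - 2))) ^ τ)) *
      (2 * r ^ (2 * A) * (1 + r ^ (2 * A) / (m + 1)) ^ m) := by
  have hr0 : 0 < r := by linarith
  have hA2 : 2 ≤ A := by omega
  set wl : Fin (m + 1) → ℤ := fun k => hh A (k + 1) - hh A k with hwl
  set w : Fin (m + 1) × Fin (m + 1) × Fin (m + 1) → ℤ := fun e => wl e.1 with hw
  have hw' : ∀ e, w e = A ∨ w e = -((A : ℤ) - 2) := fun e => hh_step A e.1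
  set X : Finset ℤ := Finset.Icc (-(A * (m + 1) ^ 3)) (A * (m + 1) ^ 3) with hX
  have hXs : ∀ s, wtS w s ∈ X := by
    intro s
    rw [hX, Finset.mem_Icc, ← abs_le, wtS]
    refine (Finset.abs_sum_le_sum_abs _ _).trans ?_
    have : ∀ e ∈ (Finset.univ : Finset (Fin (m + 1) × Fin (m + 1) × Fin (m + 1))),
        |((s e).toNat : ℤ) * w e| ≤ A := by
      intro e _
      rcases hw' e with h | h <;> cases s e <;> simp [h, abs_le]
      omega
    refine (Finset.sum_le_card_nsmul _ _ _ this).trans (le_of_eq ?_)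
    simp
    ring
  have hXc : (X.card : ℝ) = 2 * A * ((m : ℝ) + 1) ^ 3 + 1 := by
    have : (X.card : ℤ) = 2 * A * ((m : ℤ) + 1) ^ 3 + 1 := by
      rw [hX, Int.card_Icc, Int.toNat_of_nonneg (by
        have : (0 : ℤ) ≤ A * (m + 1) ^ 3 := by positivity
        linarith)]
      ring
    exact_mod_cast this
  have hsum : ∑ k, wl k = hh A (m + 1) := by
    rw [hwl, Fin.sum_univ_eq_sum_range (fun k => hh A (k + 1) - hh A k) (m + 1),
      Finset.sum_range_sub]
    simp [hh]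
  have hT : (1 : ℝ) ≤ r ^ (2 * A) := one_le_pow₀ hr
  have hlow := mu_imm_ge K m wl hr0 hT (fun j => r ^ (-(2 * hh A j)))
    (fun j => zpow_pos hr0 _)
    (fun j => by
      rw [← zpow_natCast]
      refine zpow_le_zpow_right₀ hr ?_
      have := (hh_bound hA2 j).1
      push_cast; linarith)
    (fun j => by
      rw [← zpow_natCast, ← zpow_neg]
      refine zpow_le_zpow_right₀ hr ?_
      have := (hh_bound hA2 j).2
      push_cast; linarith)
    (fun k => by
      rw [← zpow_add₀ hr0.ne']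
      congr 1
      simp only [hwl, Fin.val_succ, Fin.val_castSucc]
      ring)
    (by simp [hh]) X hXs
  have hW0 : 0 < Wtot w r := Finset.sum_pos (fun _ _ => zpow_pos hr0 _) Finset.univ_nonempty
  have hne : imm K (m + 1) ≠ 0 := by
    intro h
    rw [h, mu_zero, zero_mul] at hlow
    exact absurd hlow (not_le.2 hW0)
  have hdeg : C.degOut = m + 1 := by
    have h1 := output_homog C hC
    rw [hout] at h1
    exact h1.inj_right (imm_homog K m) hne
  have hdec := Dec_output w C hC hw' hA hτ hr0 hκ hκ2 hβ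
  rw [hdeg, hout] at hdec
  have hup := mu_le_of_Dec w hr X (∑ k, wl k) hdec
  have h1 := hlow.trans (mul_le_mul_of_nonneg_right hup (by positivity))
  rw [hXc] at h1
  have h2 : r ^ (-∑ k, wl k) ≤ r ^ A := by
    rw [← zpow_natCast, hsum]
    refine zpow_le_zpow_right₀ hr ?_
    have := (hh_bound hA2 (m + 1)).1
    linarith
  set c := (C.size : ℝ) ^ 2 * (2 * (κ / r) ^ (m + 1) + 2 * (2 * r ^ (-((A : ℤ) - 2))) ^ τ) with hc
  have hc0 : 0 ≤ c := by positivity
  set Ξ := 2 * r ^ (2 * A) * (1 + r ^ (2 * A) / (m + 1)) ^ m with hΞ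
  have hΞ0 : 0 ≤ Ξ := by positivity
  refine le_of_mul_le_mul_left ?_ hW0
  rw [mul_one]
  refine h1.trans ?_
  calc (2 * A * ((m : ℝ) + 1) ^ 3 + 1) * Wtot w r * r ^ (-∑ k, wl k) * c * Ξ
      ≤ (2 * A * ((m : ℝ) + 1) ^ 3 + 1) * Wtot w r * r ^ A * c * Ξ := by gcongr
    _ = _ := by ring

theorem lower_bound (K : Type*) [Field K] [CharZero K] (n : ℕ) (hn : ⌈Real.exp 200⌉₊ + 10 ^ 6 ≤ n)
    {L B P S R : Type*} [Fintype L] [Fintype B] [Fintype P] [Fintype S] [Fintype R]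
    (C : SPSPS K (Fin n × Fin n × Fin n) L B P S R) (hC : C.IsHomogeneous)
    (hout : C.output = imm K n) : (n : ℝ) ^ (Real.sqrt n / 400) ≤ (C.size : ℝ) := by
  obtain ⟨m, rfl⟩ : ∃ m, n = m + 1 := ⟨n - 1, by omega⟩
  set N : ℝ := ((m + 1 : ℕ) : ℝ) with hN
  have hN' : (m : ℝ) + 1 = N := by simp [hN]
  have hN1 : (10 : ℝ) ^ 6 ≤ N := by
    rw [hN]; exact_mod_cast (Nat.le_add_left _ _).trans hn
  have hN0 : 0 < N := by linarith [show (0 : ℝ) < 10 ^ 6 by norm_num]
  set l := Real.log N with hl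
  have hl1 : 200 ≤ l := by
    rw [hl, Real.le_log_iff_exp_le hN0]
    refine (Nat.le_ceil _).trans ?_
    rw [hN]; exact_mod_cast (Nat.le_add_right _ _).trans hn
  clear hn
  have hNl : N = Real.exp l := (Real.exp_log hN0).symm
  set x := Real.sqrt N with hx
  have hx2 : x ^ 2 = N := Real.sq_sqrt hN0.le
  have hx1 : 1000 ≤ x := by
    rw [hx]; exact Real.le_sqrt_of_sq_le (by linarith)
  set τ := Nat.sqrt (m + 1) + 1 with hτ
  have hτ0 : 0 < τ := Nat.succ_pos _
  have hτ1 : x < τ := by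
    rw [hx, hτ, hN]; push_cast; exact_mod_cast Real.real_sqrt_lt_nat_sqrt_succ
  have hτ2 : (τ : ℝ) ≤ x + 1 := by
    rw [hx, hτ, hN]; push_cast
    have := @Real.nat_sqrt_le_real_sqrt (m + 1)
    push_cast at this
    linarith
  have hτ3 : (0 : ℝ) < τ := by linarith
  set r := Real.exp (l / (24 * τ)) with hr
  set κ := Real.exp (1 / τ) with hκ
  have hr1 : 1 ≤ r := Real.one_le_exp (by positivity)
  have hκ1 : 1 ≤ κ := Real.one_le_exp (by positivity)
  have he2 : (2 : ℝ) ≤ Real.exp 1 := by have := Real.add_one_le_exp 1; linarith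
  have hκ2 : 2 ≤ κ ^ τ := by
    rw [hκ, ← Real.exp_nat_mul, mul_one_div_cancel hτ3.ne']; exact he2
  have hβ0 : 2 * r ^ (-(((6 * τ : ℕ) : ℤ) - 2)) ≤ Real.exp (1 - l / 6) := by
    rw [hr, ← Real.rpow_intCast, ← Real.exp_mul, sub_eq_add_neg 1, Real.exp_add]
    refine mul_le_mul he2 (Real.exp_le_exp.2 ?_) (Real.exp_pos _).le (Real.exp_pos _).le
    push_cast
    rw [div_mul_eq_mul_div, div_le_iff₀ (by positivity)]
    nlinarith
  have hβ : 2 * r ^ (-(((6 * τ : ℕ) : ℤ) - 2)) ≤ 1 :=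
    hβ0.trans (Real.exp_le_one_iff.2 (by linarith))
  have key := core K m C hC hout (A := 6 * τ) le_rfl hτ0 hr1 hκ1 hκ2 hβ
  rw [hN'] at key
  set E := Real.exp (-((x - 1) * (l / 24 - 1))) with hE
  have a1 : (κ / r) ^ (m + 1) ≤ E := by
    rw [hκ, hr, ← Real.exp_sub, ← Real.exp_nat_mul, hE, Real.exp_le_exp, ← hN]
    have : 1 / (τ : ℝ) - l / (24 * τ) = -((l / 24 - 1) / τ) := by field_simp; ring
    rw [this, mul_neg, neg_le_neg_iff, ← mul_div_assoc, le_div_iff₀ hτ3, ← hx2]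
    have h1 : (x - 1) * τ ≤ x ^ 2 := by nlinarith
    have h2 : 0 ≤ l / 24 - 1 := by linarith
    nlinarith
  have a2 : (2 * r ^ (-(((6 * τ : ℕ) : ℤ) - 2))) ^ τ ≤ E := by
    refine (pow_le_pow_left₀ (by positivity) hβ0 τ).trans ?_
    rw [← Real.exp_nat_mul, hE, Real.exp_le_exp]
    nlinarith
  have a3 : r ^ (6 * τ) = Real.exp (l / 4) := by
    rw [hr, ← Real.exp_nat_mul]; congr 1; push_cast; field_simp; ring
  have a4 : r ^ (2 * (6 * τ)) = Real.exp (l / 2) := by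
    rw [hr, ← Real.exp_nat_mul]; congr 1; push_cast; field_simp; ring
  have a5 : Real.exp (l / 2) = x := by
    rw [hx, hNl, ← Real.exp_half]
  have a6 : (1 + r ^ (2 * (6 * τ)) / N) ^ m ≤ Real.exp x := by
    rw [a4, a5]
    have h1 : 1 + x / N ≤ Real.exp (x / N) := by have := Real.add_one_le_exp (x / N); linarith
    refine (pow_le_pow_left₀ (by positivity) h1 m).trans ?_
    rw [← Real.exp_nat_mul, Real.exp_le_exp, ← mul_div_assoc, div_le_iff₀ hN0]
    nlinarith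
  have a7 : 2 * ((6 * τ : ℕ) : ℝ) * N ^ 3 + 1 ≤ Real.exp (5 * l) := by
    have h1 : Real.exp (5 * l) = N ^ 5 := by
      rw [hNl, ← Real.exp_nat_mul]; norm_num
    rw [h1]
    push_cast
    have h2 : (1 : ℝ) ≤ N ^ 3 := one_le_pow₀ (by linarith)
    have h3 : 12 * (τ : ℝ) + 1 ≤ N ^ 2 := by nlinarith
    calc 2 * (6 * (τ : ℝ)) * N ^ 3 + 1 ≤ (12 * τ + 1) * N ^ 3 := by nlinarith
      _ ≤ N ^ 2 * N ^ 3 := by gcongr
      _ = N ^ 5 := by ring
  set s : ℝ := (C.size : ℝ) with hs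
  have hs0 : 0 ≤ s := Nat.cast_nonneg _
  have a8 : (8 : ℝ) ≤ Real.exp 3 := by
    have : Real.exp 3 = Real.exp 1 ^ 3 := by rw [← Real.exp_nat_mul]; norm_num
    rw [this]
    calc (8 : ℝ) = 2 ^ 3 := by norm_num
      _ ≤ _ := by gcongr
  have key2 : 1 ≤ s ^ 2 * Real.exp (-(x * l / 200)) := by
    refine key.trans ?_
    calc _ ≤ Real.exp (5 * l) * Real.exp (l / 4) * (s ^ 2 * (2 * E + 2 * E)) *
          (2 * Real.exp (l / 2) * Real.exp x) := by
          rw [a3]
          gcongr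
          rw [a4]
      _ = s ^ 2 * (8 * (Real.exp (5 * l) * Real.exp (l / 4) * E * Real.exp (l / 2) *
          Real.exp x)) := by ring
      _ ≤ s ^ 2 * (Real.exp 3 * (Real.exp (5 * l) * Real.exp (l / 4) * E * Real.exp (l / 2) *
          Real.exp x)) := by gcongr
      _ ≤ s ^ 2 * Real.exp (-(x * l / 200)) := by
          refine mul_le_mul_of_nonneg_left ?_ (sq_nonneg _)
          rw [hE]
          simp only [← Real.exp_add]
          rw [Real.exp_le_exp]
          nlinarith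
  have key3 : Real.exp (l * (x / 400)) ^ 2 ≤ s ^ 2 := by
    have h1 : Real.exp (l * (x / 400)) ^ 2 * Real.exp (-(x * l / 200)) = 1 := by
      rw [← Real.exp_nat_mul, ← Real.exp_add, Real.exp_eq_one_iff]; push_cast; ring
    rw [← h1] at key2
    exact le_of_mul_le_mul_right key2 (Real.exp_pos _)
  rw [Real.rpow_def_of_pos hN0]
  exact (pow_le_pow_iff_left₀ (Real.exp_pos _).le hs0 two_ne_zero).1 key3

end Crest.Agent.R327
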