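import Mathlib
import Crest.Prelude.Def_SPSPS
import Crest.Agent.R327.Path

set_option autoImplicit false
set_option linter.unusedSectionVars false

namespace Crest.Agent.R327

open MvPolynomial Crest.ArithCircuit

section reindex
variable {K ι L B P S R L' B' P' S' R' : Type*} [CommSemiring K] (C : SPSPS K ι L B P S R)
  (eL : L ≃ L') (eB : B ≃ B') (eP : P ≃ P') (eS : S ≃ S') (eR : R ≃ R')

/-- transport a circuit along bijections of its layers -/
def reidx : SPSPS K ι L' B' P' S' R' where
  leaf l := C.leaf (eL.symm l)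
  inB b := (C.inB (eB.symm b)).map eL.toEmbedding
  coefB b l := C.coefB (eB.symm b) (eL.symm l)
  inP p := (C.inP (eP.symm p)).map eB
  inS s := (C.inS (eS.symm s)).map eP.toEmbedding
  coefS s p := C.coefS (eS.symm s) (eP.symm p)
  inR r := (C.inR (eR.symm r)).map eS
  inOut := C.inOut.map eR.toEmbedding
  coefOut r := C.coefOut (eR.symm r)

lemma reidx_valB (b : B') : (reidx C eL eB eP eS eR).valB b = C.valB (eB.symm b) := by
  simp [SPSPS.valB, reidx, SPSPS.leafVal]

lemma reidx_valP (p : P') : (reidx C eL eB eP eS eR).valP p = C.valP (eP.symm p) := by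
  simp only [SPSPS.valP]
  rw [show (reidx C eL eB eP eS eR).inP p = (C.inP (eP.symm p)).map eB from rfl, Multiset.map_map]
  simp [reidx_valB]

lemma reidx_valS (s : S') : (reidx C eL eB eP eS eR).valS s = C.valS (eS.symm s) := by
  simp only [SPSPS.valS, reidx_valP]
  simp [reidx]

lemma reidx_valR (r : R') : (reidx C eL eB eP eS eR).valR r = C.valR (eR.symm r) := by
  simp only [SPSPS.valR]
  rw [show (reidx C eL eB eP eS eR).inR r = (C.inR (eR.symm r)).map eS from rfl, Multiset.map_map]
  simp [reidx_valS]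

lemma reidx_output : (reidx C eL eB eP eS eR).output = C.output := by
  simp only [SPSPS.output, reidx_valR]
  simp [reidx]

lemma reidx_leafDeg (l : L') : (reidx C eL eB eP eS eR).leafDeg l = C.leafDeg (eL.symm l) := rfl

lemma reidx_degB (b : B') : (reidx C eL eB eP eS eR).degB b = C.degB (eB.symm b) := by
  simp only [SPSPS.degB]
  rw [show (reidx C eL eB eP eS eR).inB b = (C.inB (eB.symm b)).map eL.toEmbedding from rfl,
    Finset.sup_map]
  congr 1
  funext l
  simp [reidx_leafDeg]

lemma reidx_degP (p : P') : (reidx C eL eB eP eS eR).degP p = C.degP (eP.symm p) := by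
  simp only [SPSPS.degP]
  rw [show (reidx C eL eB eP eS eR).inP p = (C.inP (eP.symm p)).map eB from rfl, Multiset.map_map]
  simp [reidx_degB]

lemma reidx_degS (s : S') : (reidx C eL eB eP eS eR).degS s = C.degS (eS.symm s) := by
  simp only [SPSPS.degS]
  rw [show (reidx C eL eB eP eS eR).inS s = (C.inS (eS.symm s)).map eP.toEmbedding from rfl,
    Finset.sup_map]
  congr 1
  funext l
  simp [reidx_degP]

lemma reidx_degR (r : R') : (reidx C eL eB eP eS eR).degR r = C.degR (eR.symm r) := by
  simp only [SPSPS.degR]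
  rw [show (reidx C eL eB eP eS eR).inR r = (C.inR (eR.symm r)).map eS from rfl, Multiset.map_map]
  simp [reidx_degS]

lemma reidx_degOut : (reidx C eL eB eP eS eR).degOut = C.degOut := by
  simp only [SPSPS.degOut]
  rw [show (reidx C eL eB eP eS eR).inOut = C.inOut.map eR.toEmbedding from rfl, Finset.sup_map]
  congr 1
  funext l
  simp [reidx_degR]

lemma reidx_homog (h : C.IsHomogeneous) : (reidx C eL eB eP eS eR).IsHomogeneous := by
  refine ⟨fun b l hl => ?_, fun s p hp => ?_, fun r hr => ?_⟩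
  · rw [reidx_leafDeg, reidx_degB]
    refine h.1 _ _ ?_
    simpa [reidx] using hl
  · rw [reidx_degP, reidx_degS]
    refine h.2.1 _ _ ?_
    simpa [reidx] using hp
  · rw [reidx_degR, reidx_degOut]
    refine h.2.2 _ ?_
    simpa [reidx] using hr

end reindex

section construct
variable (K : Type*) [Field K] (n t : ℕ)

/-- length of block `c` -/
def blen (c : ℕ) : ℕ := min t (n - c * t)

lemma blen_lt (c : ℕ) (j : Fin (blen n t c)) : c * t + j < n := by
  have := j.2
  unfold blen at this
  omega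

/-- product of the matrices of block `c` -/
noncomputable def blockM (c : ℕ) : Matrix (Fin n) (Fin n) (MvPolynomial (Fin n × Fin n × Fin n) K) :=
  (List.ofFn fun j : Fin (blen n t c) => varMatrix K n ⟨c * t + j, blen_lt n t c j⟩).prod

/-- variable matrices indexed by naturals -/
noncomputable def varM' (k : ℕ) : Matrix (Fin n) (Fin n) (MvPolynomial (Fin n × Fin n × Fin n) K) :=
  if h : k < n then varMatrix K n ⟨k, h⟩ else 1

lemma ofFn_eq_map_range {α : Type*} (m : ℕ) (f : ℕ → α) :
    (List.ofFn fun j : Fin m => f j) = (List.range m).map f := by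
  rw [List.ofFn_eq_map, ← List.map_coe_finRange_eq_range, List.map_map]
  rfl

lemma blockM_eq (c : ℕ) :
    blockM K n t c = ((List.range (blen n t c)).map fun j => varM' K n (c * t + j)).prod := by
  rw [blockM, ← ofFn_eq_map_range]
  congr 2
  funext j
  rw [varM', dif_pos (blen_lt n t c j)]

lemma prod_blockM : ∀ ρ : ℕ, (List.ofFn fun c : Fin ρ => blockM K n t c).prod =
    ((List.range (min (ρ * t) n)).map (varM' K n)).prod
  | 0 => by simp
  | ρ + 1 => by
    rw [List.ofFn_succ', List.concat_eq_append, List.prod_append]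
    simp only [Fin.val_castSucc, Fin.val_last, List.prod_cons, List.prod_nil, mul_one]
    rw [prod_blockM ρ, blockM_eq]
    by_cases h : ρ * t ≤ n
    · have e : min ((ρ + 1) * t) n = ρ * t + blen n t ρ := by
        unfold blen; rw [add_mul]; omega
      rw [e, List.range_add, List.map_append, List.prod_append, min_eq_left h, List.map_map]
      rfl
    · have e : min ((ρ + 1) * t) n = min (ρ * t) n := by rw [add_mul]; omega
      have e2 : blen n t ρ = 0 := by unfold blen; omega
      rw [e, e2]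
      simp

lemma prod_varMatrix {ρ : ℕ} (h : n ≤ ρ * t) : (List.ofFn (varMatrix K n)).prod =
    (List.ofFn fun c : Fin ρ => blockM K n t c).prod := by
  rw [prod_blockM, min_eq_right h, ← ofFn_eq_map_range]
  congr 2
  funext j
  rw [varM', dif_pos j.2]

/-- the circuit -/
noncomputable def circ (ρ : ℕ) (o : Fin n) : SPSPS K (Fin n × Fin n × Fin n) (Fin n × Fin n × Fin n)
    (Fin n × Fin n × Fin n) (Σ c : Fin ρ, Fin (blen n t c + 1) → Fin n) (Fin ρ × Fin n × Fin n)
    (Paths ρ o o) where
  leaf l := Sum.inl l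
  inB b := {b}
  coefB _ _ := 1
  inP p := (Finset.univ : Finset (Fin (blen n t p.1))).val.map
    fun j : Fin (blen n t p.1) => (⟨p.1 * t + j, blen_lt n t p.1 j⟩, p.2 j.castSucc, p.2 j.succ)
  inS s := (Paths (blen n t s.1) s.2.1 s.2.2).map (Function.Embedding.sigmaMk s.1)
  coefS _ _ := 1
  inR v := (Finset.univ : Finset (Fin ρ)).val.map fun c => (c, v.1 c.castSucc, v.1 c.succ)
  inOut := Finset.univ
  coefOut _ := 1

variable (ρ : ℕ) (o : Fin n)

lemma circ_valB (b) : (circ K n t ρ o).valB b = X b := by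
  simp [SPSPS.valB, circ, SPSPS.leafVal]

lemma circ_valP (p) : (circ K n t ρ o).valP p =
    ∏ j : Fin (blen n t p.1), X (⟨p.1 * t + j, blen_lt n t p.1 j⟩, p.2 j.castSucc, p.2 j.succ) := by
  simp only [SPSPS.valP]
  rw [show (circ K n t ρ o).inP p = (Finset.univ : Finset (Fin (blen n t p.1))).val.map
    fun j : Fin (blen n t p.1) => (⟨p.1 * t + j, blen_lt n t p.1 j⟩, p.2 j.castSucc, p.2 j.succ) from rfl,
    Multiset.map_map]
  simp only [Function.comp_def, circ_valB]
  rfl

lemma circ_valS (s) : (circ K n t ρ o).valS s = blockM K n t s.1 s.2.1 s.2.2 := by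
  simp only [SPSPS.valS, circ_valP]
  rw [show (circ K n t ρ o).inS s =
    (Paths (blen n t s.1) s.2.1 s.2.2).map (Function.Embedding.sigmaMk s.1) from rfl,
    Finset.sum_map, blockM, prod_ofFn_apply']
  refine Finset.sum_congr rfl fun v _ => ?_
  simp only [circ, one_smul]
  rfl

lemma circ_valR (v) : (circ K n t ρ o).valR v =
    ∏ c : Fin ρ, blockM K n t c (v.1 c.castSucc) (v.1 c.succ) := by
  simp only [SPSPS.valR]
  rw [show (circ K n t ρ o).inR v = (Finset.univ : Finset (Fin ρ)).val.map
    fun c => (c, v.1 c.castSucc, v.1 c.succ) from rfl, Multiset.map_map]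
  simp only [Function.comp_def, circ_valS]
  rfl

lemma circ_output (h : n ≤ ρ * t) :
    (circ K n t ρ o).output = (List.ofFn (varMatrix K n)).prod o o := by
  rw [prod_varMatrix K n t h, prod_ofFn_apply']
  simp only [SPSPS.output, circ_valR]
  simp only [circ, one_smul]
  exact Finset.sum_coe_sort (Paths ρ o o)
    (fun v => ∏ c : Fin ρ, blockM K n t c (v c.castSucc) (v c.succ))

lemma circ_degB (b) : (circ K n t ρ o).degB b = 1 := by
  simp [SPSPS.degB, circ, SPSPS.leafDeg]

lemma circ_degP (p) : (circ K n t ρ o).degP p = blen n t p.1 := by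
  simp only [SPSPS.degP]
  rw [show (circ K n t ρ o).inP p = (Finset.univ : Finset (Fin (blen n t p.1))).val.map
    fun j : Fin (blen n t p.1) => (⟨p.1 * t + j, blen_lt n t p.1 j⟩, p.2 j.castSucc, p.2 j.succ) from rfl,
    Multiset.map_map]
  simp [circ_degB]

lemma circ_degS (hb : ∀ c < ρ, 0 < blen n t c) (s) : (circ K n t ρ o).degS s = blen n t s.1 := by
  simp only [SPSPS.degS]
  rw [show (circ K n t ρ o).inS s =
    (Paths (blen n t s.1) s.2.1 s.2.2).map (Function.Embedding.sigmaMk s.1) from rfl,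
    Finset.sup_map]
  have h1 : (Paths (blen n t s.1) s.2.1 s.2.2).Nonempty := by
    obtain ⟨m, hm⟩ : ∃ m, blen n t s.1 = m + 1 := ⟨blen n t s.1 - 1, by have := hb _ s.1.2; omega⟩
    rw [hm, ← Finset.card_pos, card_Paths]
    have : 0 < n := o.pos
    simp [this]
  have h2 : ((circ K n t ρ o).degP ∘ (Function.Embedding.sigmaMk s.1)) = fun _ => blen n t s.1 := by
    funext v
    simp [circ_degP]
  rw [h2, Finset.sup_const h1]

lemma circ_degR (hb : ∀ c < ρ, 0 < blen n t c) (v) :
    (circ K n t ρ o).degR v = ∑ c : Fin ρ, blen n t c := by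
  simp only [SPSPS.degR]
  rw [show (circ K n t ρ o).inR v = (Finset.univ : Finset (Fin ρ)).val.map
    fun c => (c, v.1 c.castSucc, v.1 c.succ) from rfl, Multiset.map_map]
  simp only [Function.comp_def, circ_degS K n t ρ o hb]
  rfl

lemma circ_homog (hb : ∀ c < ρ, 0 < blen n t c) : (circ K n t ρ o).IsHomogeneous := by
  refine ⟨fun b l _ => ?_, fun s p hp => ?_, fun v hv => ?_⟩
  · rw [circ_degB]; rfl
  · rw [circ_degS K n t ρ o hb, circ_degP]
    obtain ⟨v, _, rfl⟩ := Finset.mem_map.1 hp
    rfl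
  · have h2 : (circ K n t ρ o).degR = fun _ => ∑ c : Fin ρ, blen n t c :=
      funext (circ_degR K n t ρ o hb)
    rw [SPSPS.degOut, h2, Finset.sup_const ⟨v, hv⟩]

end construct

theorem construct (K : Type*) [Field K] (n t ρ : ℕ) (hn : 0 < n) (ht : 0 < t) (hρ : 0 < ρ)
    (h1 : n ≤ ρ * t) (h2 : ∀ c < ρ, c * t < n) :
    ∃ (l b p s r : ℕ)
      (C : SPSPS K (Fin n × Fin n × Fin n) (Fin l) (Fin b) (Fin p) (Fin s) (Fin r)),
      C.IsHomogeneous ∧ C.output = imm K n ∧
        C.size ≤ 2 * n ^ 3 + ρ * n ^ 2 + ρ * n ^ (t + 1) + n ^ (ρ - 1) + 1 := by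
  obtain ⟨m, rfl⟩ : ∃ m, n = m + 1 := ⟨n - 1, by omega⟩
  refine ⟨_, _, _, _, _, reidx (circ K (m + 1) t ρ 0) (Fintype.equivFin _) (Fintype.equivFin _)
    (Fintype.equivFin _) (Fintype.equivFin _) (Fintype.equivFin _), ?_, ?_, ?_⟩
  · refine reidx_homog _ _ _ _ _ _ (circ_homog K _ t ρ 0 fun c hc => ?_)
    have := h2 c hc
    unfold blen; omega
  · rw [reidx_output, circ_output K _ t ρ 0 h1]; rfl
  · obtain ⟨k, rfl⟩ : ∃ k, ρ = k + 1 := ⟨ρ - 1, by omega⟩
    simp only [SPSPS.size, Fintype.card_fin, Fintype.card_prod, Fintype.card_coe, card_Paths,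
      Fintype.card_sigma, Fintype.card_fun, Nat.add_sub_cancel]
    have h3 : ∑ c : Fin (k + 1), (m + 1) ^ (blen (m + 1) t c + 1) ≤ (k + 1) * (m + 1) ^ (t + 1) := by
      have : ∀ c ∈ (Finset.univ : Finset (Fin (k + 1))),
          (m + 1) ^ (blen (m + 1) t c + 1) ≤ (m + 1) ^ (t + 1) := fun c _ =>
        Nat.pow_le_pow_right hn (by unfold blen; omega)
      simpa using Finset.sum_le_card_nsmul _ _ _ this
    nlinarith

end Crest.Agent.R327
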